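import Vale.Agent.P086.Spec
import Vale.Agent.P086.Lemmas

/-!
# Continuous functions of one semicircular operator

The recursion gives the Catalan moments, which are those of the semicircle law; polynomials are
uniformly dense on `[-2, 2]`.
-/

noncomputable section

namespace Vale.Agent.P086

open scoped InnerProductSpace BigOperators
open MeasureTheory Polynomial

universe u

variable {H : Type u} [NormedAddCommGroup H] [InnerProductSpace ℂ H] [CompleteSpace H]
variable {Ω : H} {ι : Type} [DecidableEq ι] {X : ι → H →L[ℂ] H}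

/-- The moments of the semicircle law. -/
def scMoment (n : ℕ) : ℂ := if Even n then (catalan (n / 2) : ℂ) else 0

lemma scMoment_succ (n : ℕ) :
    scMoment (n + 1) = ∑ k ∈ Finset.range n, scMoment k * scMoment (n - 1 - k) := by
  rcases Nat.even_or_odd' n with ⟨q, rfl | rfl⟩
  · rw [scMoment, if_neg (by simp)]
    refine (Finset.sum_eq_zero fun k hk => ?_).symm
    rw [Finset.mem_range] at hk
    rcases Nat.even_or_odd k with h | h
    · rw [mul_eq_zero]; right
      refine if_neg ?_
      obtain ⟨j, rfl⟩ := h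
      rw [Nat.not_even_iff_odd]
      exact ⟨q - 1 - j, by omega⟩
    · rw [mul_eq_zero]; left
      exact if_neg (Nat.not_even_iff_odd.2 h)
  · have e : 2 * q + 1 + 1 = 2 * (q + 1) := by omega
    rw [scMoment, if_pos (by rw [e]; exact even_two_mul _), e, Nat.mul_div_cancel_left _ two_pos,
      catalan_succ]
    push_cast
    rw [Fin.sum_univ_eq_sum_range fun i => (catalan i : ℂ) * (catalan (q - i) : ℂ)]
    have hev : ∀ i ≤ q, scMoment (2 * i) * scMoment (2 * q + 1 - 1 - 2 * i) =
        (catalan i : ℂ) * (catalan (q - i) : ℂ) := fun i hi => by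
      rw [scMoment, scMoment, if_pos (even_two_mul i), show 2 * q + 1 - 1 - 2 * i = 2 * (q - i) by
        omega, if_pos (even_two_mul _), Nat.mul_div_cancel_left _ two_pos,
        Nat.mul_div_cancel_left _ two_pos]
    rw [← Finset.sum_congr rfl fun i hi => hev i (by rw [Finset.mem_range] at hi; omega),
      ← Finset.sum_filter_of_ne (s := Finset.range (2 * q + 1)) (p := fun k => Even k)
        (fun k _ hk => by
          by_contra h
          exact hk (by simp [scMoment, h]))]
    refine Finset.sum_nbij' (fun i => 2 * i) (fun k => k / 2) (fun i hi => ?_) (fun k hk => ?_)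
      (fun i _ => by simp) (fun k hk => ?_) (fun i _ => rfl)
    · rw [Finset.mem_range] at hi
      rw [Finset.mem_filter, Finset.mem_range]
      exact ⟨by omega, even_two_mul i⟩
    · rw [Finset.mem_filter, Finset.mem_range] at hk
      rw [Finset.mem_range]
      omega
    · rw [Finset.mem_filter] at hk
      exact Nat.two_mul_div_two_of_even hk.2

/-- The moments of one member. -/
lemma IsSC.tr_pow (h : IsSC Ω X) (i : ι) (n : ℕ) : tr Ω (X i ^ n) = scMoment n := by
  induction n using Nat.strong_induction_on with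
  | _ n ih =>
    cases n with
    | zero => simp [tr, scMoment, inner_self_eq_norm_sq_to_K, h.unit]
    | succ n =>
      have hw : ∀ m, wprod X (List.replicate m i) = X i ^ m := fun m => by simp [wprod]
      rw [pow_succ', ← hw, h.split, scMoment_succ, ← Fin.sum_univ_eq_sum_range
        fun k => scMoment k * scMoment (n - 1 - k)]
      refine Fintype.sum_equiv (finCongr (by simp)) _ _ fun k => ?_
      have hk : k.val < n := by simpa using k.isLt
      rw [if_pos (List.eq_of_mem_replicate (List.get_mem _ k)), List.take_replicate,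
        List.drop_replicate, hw, hw, ih _ (by omega), ih _ (by omega)]
      simp only [finCongr_apply, Fin.val_cast]
      congr 2 <;> omega

lemma IsSC.spectrum_subset (h : IsSC Ω X) (i : ι) :
    spectrum ℝ (X i) ⊆ Set.Icc (-2) 2 := by
  intro t ht
  have : Nontrivial (H →L[ℂ] H) := by
    refine nontrivial_of_ne 1 0 fun e => ?_
    have := congrArg (fun a : H →L[ℂ] H => a Ω) e
    simp only [one_apply_eq_self, zero_apply] at this
    simpa [this] using h.unit
  have h1 := spectrum.norm_le_norm_of_mem ht
  rw [Real.norm_eq_abs] at h1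
  exact abs_le.1 (h1.trans (h.bound i))

lemma continuous_scDens : Continuous scDens := by unfold scDens; fun_prop

/-- Continuous real functions of one member. -/
lemma IsSC.cfc_real (hS : SemiGoal) (h : IsSC Ω X) (i : ι) {f : ℝ → ℝ} (hf : Continuous f) :
    cfc f (X i) ∈ vn {X i} ∧
      tr Ω (cfc f (X i)) = ((∫ t in (-2 : ℝ)..2, scDens t * f t : ℝ) : ℂ) := by
  have ha := h.sa i
  have hsp := h.spectrum_subset i
  obtain ⟨-, -, -, -, -, -, -, -, -, -, hmom, -⟩ := hS
  have hd : ∀ g : ℝ → ℝ, Continuous g → IntervalIntegrable (fun t => scDens t * g t) volume (-2) 2 :=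
    fun g hg => (continuous_scDens.mul hg).intervalIntegrable _ _
  -- polynomials
  have hpoly : ∀ p : ℝ[X], aeval (X i) p ∈ vn {X i} ∧
      tr Ω (aeval (X i) p) = ((∫ t in (-2 : ℝ)..2, scDens t * p.eval t : ℝ) : ℂ) := by
    intro p
    induction p using Polynomial.induction_on' with
    | add p q hp hq =>
      simp only [map_add, tr_add, hp.2, hq.2, eval_add, mul_add]
      rw [intervalIntegral.integral_add (hd _ p.continuous) (hd _ q.continuous)]
      exact ⟨vn_add hp.1 hq.1, by push_cast; rfl⟩
    | monomial n c =>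
      have e : aeval (X i) (monomial n c) = (c : ℂ) • X i ^ n := by
        rw [aeval_monomial, ← Algebra.smul_def, Complex.coe_smul]
      refine ⟨e ▸ vn_smul _ (vn_pow (subset_vn {X i} rfl) n), ?_⟩
      rw [e, tr_smul, h.tr_pow i n]
      simp only [eval_monomial, ← mul_assoc, mul_comm (scDens _) c]
      simp only [mul_assoc]
      rw [intervalIntegral.integral_const_mul, hmom n]
      unfold scMoment
      split_ifs <;> simp
  -- uniform approximation
  have happ : ∀ ε > (0 : ℝ), ∃ p : ℝ[X], ‖cfc f (X i) - aeval (X i) p‖ ≤ ε ∧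
      ∀ t ∈ Set.Icc (-2 : ℝ) 2, |f t - p.eval t| ≤ ε := by
    intro ε hε
    obtain ⟨p, hp⟩ := exists_polynomial_near_of_continuousOn (-2) 2 f hf.continuousOn ε hε
    have hp' : ∀ t ∈ Set.Icc (-2 : ℝ) 2, |f t - p.eval t| ≤ ε := fun t ht => by
      rw [abs_sub_comm]; exact (hp t ht).le
    refine ⟨p, ?_, hp'⟩
    rw [← cfc_polynomial p (X i) ha, ← cfc_sub f p.eval (X i) hf.continuousOn p.continuous.continuousOn]
    exact norm_cfc_le hε.le fun t ht => by simpa [Real.norm_eq_abs] using hp' t (hsp ht)
  refine ⟨(isClosed_vn _).closure_subset (Metric.mem_closure_iff.2 fun ε hε => ?_), ?_⟩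
  · obtain ⟨p, hp, -⟩ := happ (ε / 2) (half_pos hε)
    exact ⟨_, (hpoly p).1, by rw [dist_eq_norm]; linarith⟩
  · refine eq_of_forall_dist_le fun ε hε => ?_
    have hI : ∫ t in (-2 : ℝ)..2, scDens t = 1 := by simpa using hmom 0
    obtain ⟨p, hp, hp'⟩ := happ (ε / 2) (half_pos hε)
    have e1 : ‖tr Ω (cfc f (X i)) - tr Ω (aeval (X i) p)‖ ≤ ε / 2 := by
      rw [← sub_add_cancel (cfc f (X i)) (aeval (X i) p), tr_add, add_sub_cancel_right]
      exact (norm_tr_le Ω h.unit _).trans ((norm_apply_le Ω h.unit _).trans hp)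
    have e2 : ‖((∫ t in (-2 : ℝ)..2, scDens t * p.eval t : ℝ) : ℂ) -
        ((∫ t in (-2 : ℝ)..2, scDens t * f t : ℝ) : ℂ)‖ ≤ ε / 2 := by
      rw [← Complex.ofReal_sub, Complex.norm_real, Real.norm_eq_abs,
        ← intervalIntegral.integral_sub (hd _ p.continuous) (hd _ hf)]
      refine (intervalIntegral.abs_integral_le_integral_abs (by norm_num)).trans ?_
      calc ∫ t in (-2 : ℝ)..2, |scDens t * p.eval t - scDens t * f t|
          ≤ ∫ t in (-2 : ℝ)..2, ε / 2 * scDens t := by
            refine intervalIntegral.integral_mono_on (by norm_num)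
              (((hd _ p.continuous).sub (hd _ hf)).abs)
              ((continuous_scDens.const_mul _).intervalIntegrable _ _) fun t ht => ?_
            have hd0 : 0 ≤ scDens t := div_nonneg (Real.sqrt_nonneg _) (by positivity)
            rw [← mul_sub, abs_mul, abs_of_nonneg hd0, abs_sub_comm, mul_comm]
            exact mul_le_mul_of_nonneg_right (hp' t ht) hd0
        _ = ε / 2 := by rw [intervalIntegral.integral_const_mul, hI, mul_one]
    rw [dist_eq_norm]
    refine (norm_sub_le_norm_sub_add_norm_sub _ (tr Ω (aeval (X i) p)) _).trans ?_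
    rw [(hpoly p).2] at e1 ⊢
    linarith

/-- **The calculus.** -/
theorem calcGoal (hS : SemiGoal) : CalcGoal.{u} := by
  intro H _ _ _ Ω ι _ X h i
  have hreal : ∀ f : ℝ → ℝ, Continuous f →
      cfc f (X i) = cfc (fun z : ℂ => ((f z.re : ℝ) : ℂ)) (X i) := fun f _ =>
    cfc_real_eq_complex f (h.sa i)
  refine ⟨fun f hf => ?_, fun f hf => ⟨hreal f hf, h.cfc_real hS i hf⟩⟩
  have : IsStarNormal (X i) := (h.sa i).isStarNormal
  set f1 : ℝ → ℝ := fun t => (f t).re with hf1d
  set f2 : ℝ → ℝ := fun t => (f t).im with hf2d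
  have hf1 : Continuous f1 := Complex.continuous_re.comp hf
  have hf2 : Continuous f2 := Complex.continuous_im.comp hf
  have e : cfc (fun z : ℂ => f z.re) (X i) = cfc f1 (X i) + Complex.I • cfc f2 (X i) := by
    rw [hreal f1 hf1, hreal f2 hf2, ← cfc_smul _ _ _ (by fun_prop),
      ← cfc_add (X i) (fun z : ℂ => ((f1 z.re : ℝ) : ℂ))
        (fun z : ℂ => Complex.I • ((f2 z.re : ℝ) : ℂ)) (by fun_prop) (by fun_prop)]
    refine cfc_congr fun z _ => ?_
    simp only [hf1d, hf2d, smul_eq_mul]
    rw [mul_comm Complex.I]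
    exact (Complex.re_add_im _).symm
  obtain ⟨m1, t1⟩ := h.cfc_real hS i hf1
  obtain ⟨m2, t2⟩ := h.cfc_real hS i hf2
  refine ⟨e ▸ vn_add m1 (vn_smul _ m2), ?_⟩
  have hi : ∀ g : ℝ → ℂ, Continuous g → IntervalIntegrable g volume (-2) 2 :=
    fun g hg => hg.intervalIntegrable _ _
  have := continuous_scDens
  rw [e, tr_add, tr_smul, t1, t2, ← intervalIntegral.integral_ofReal,
    ← intervalIntegral.integral_ofReal, ← intervalIntegral.integral_const_mul,
    ← intervalIntegral.integral_add (hi _ (by fun_prop)) (hi _ (by fun_prop))]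
  refine intervalIntegral.integral_congr fun t _ => ?_
  simp only [hf1d, hf2d, Complex.ofReal_mul]
  calc _ = (scDens t : ℂ) * (((f t).re : ℂ) + ((f t).im : ℂ) * Complex.I) := by ring
    _ = _ := by rw [Complex.re_add_im]

end Vale.Agent.P086
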