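import Vale.Agent.P086.Spec

/-!
# The semicircle law

The distribution function turns the semicircle law into Lebesgue measure on `[0, 1]`; the moments
are the Catalan numbers, and the powers of the phase are dense in `L²` of the law.
-/

noncomputable section

namespace Vale.Agent.P086

open MeasureTheory Set intervalIntegral
open scoped Topology

namespace Semi

lemma continuous_scDens : Continuous scDens := by unfold scDens; fun_prop

lemma scDens_nonneg (t : ℝ) : 0 ≤ scDens t := by unfold scDens; positivity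

lemma scDens_pos {t : ℝ} (h1 : -2 < t) (h2 : t < 2) : 0 < scDens t := by
  have : (0 : ℝ) < 4 - t ^ 2 := by nlinarith
  unfold scDens
  positivity

lemma scDens_eq_zero {t : ℝ} (h : t ≤ -2 ∨ 2 ≤ t) : scDens t = 0 := by
  have : 4 - t ^ 2 ≤ (0 : ℝ) := by rcases h with h | h <;> nlinarith
  simp [scDens, Real.sqrt_eq_zero_of_nonpos this]

lemma scF_eq (t : ℝ) : scF t = ∫ x in (-2 : ℝ)..t, scDens x := by
  have hzero : ∀ a b : ℝ, (∀ x ∈ uIcc a b, x ≤ -2 ∨ 2 ≤ x) → ∫ x in a..b, scDens x = 0 := by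
    intro a b h
    rw [integral_congr (g := fun _ => (0 : ℝ)) (fun x hx => scDens_eq_zero (h x hx)),
      intervalIntegral.integral_zero]
  unfold scF
  rcases le_or_gt t (-2) with h | h
  · rw [min_eq_left (by linarith), max_eq_left h, integral_same, hzero]
    intro x hx
    rw [uIcc_of_ge h] at hx
    exact Or.inl hx.2
  · rcases le_or_gt t 2 with h' | h'
    · rw [min_eq_left h', max_eq_right h.le]
    · rw [min_eq_right h'.le, max_eq_right (by norm_num),
        ← integral_add_adjacent_intervals (b := 2) (c := t)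
          (continuous_scDens.intervalIntegrable _ _) (continuous_scDens.intervalIntegrable _ _),
        hzero 2 t, add_zero]
      intro x hx
      rw [uIcc_of_le h'.le] at hx
      exact Or.inr hx.1

lemma hasDerivAt_scF (t : ℝ) : HasDerivAt scF (scDens t) t := by
  rw [show scF = fun t => ∫ x in (-2 : ℝ)..t, scDens x from funext scF_eq]
  exact continuous_scDens.integral_hasStrictDerivAt _ _ |>.hasDerivAt

lemma continuous_scF : Continuous scF :=
  continuous_iff_continuousAt.2 fun t => (hasDerivAt_scF t).continuousAt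

lemma scF_sub (a b : ℝ) : scF b - scF a = ∫ x in a..b, scDens x := by
  rw [scF_eq, scF_eq]
  exact integral_interval_sub_left (continuous_scDens.intervalIntegrable _ _)
    (continuous_scDens.intervalIntegrable _ _)

lemma monotone_scF : Monotone scF := fun a b h => by
  have := scF_sub a b
  have := intervalIntegral.integral_nonneg (μ := volume) h fun x _ => scDens_nonneg x
  linarith

lemma scF_neg_two : scF (-2) = 0 := by rw [scF_eq, integral_same]

lemma scF_two : scF 2 = 1 := by
  rw [scF_eq]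
  have h : ∀ x : ℝ, scDens (2 * x) = 1 / Real.pi * Real.sqrt (1 - x ^ 2) := fun x => by
    rw [scDens, show (4 : ℝ) - (2 * x) ^ 2 = 2 ^ 2 * (1 - x ^ 2) by ring,
      Real.sqrt_mul (by positivity), Real.sqrt_sq (by norm_num)]
    field_simp
  have h2 := integral_comp_mul_left (a := -1) (b := 1) scDens (two_ne_zero (α := ℝ))
  simp only [h, intervalIntegral.integral_const_mul, integral_sqrt_one_sub_sq, smul_eq_mul,
    mul_neg, mul_one] at h2
  field_simp at h2
  linarith

lemma strictMonoOn_scF : StrictMonoOn scF (Icc (-2) 2) := fun a ha b hb h => by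
  have := scF_sub a b
  have : 0 < ∫ x in a..b, scDens x :=
    intervalIntegral.integral_pos h continuous_scDens.continuousOn (fun x _ => scDens_nonneg x)
      ⟨(a + b) / 2, ⟨by linarith, by linarith⟩,
        scDens_pos (by linarith [ha.1]) (by linarith [hb.2])⟩
  linarith

lemma scF_mem {t : ℝ} (ht : t ∈ Icc (-2 : ℝ) 2) : scF t ∈ Icc (0 : ℝ) 1 :=
  ⟨scF_neg_two.symm.le.trans (monotone_scF ht.1), (monotone_scF ht.2).trans scF_two.le⟩

lemma scInv_spec (y : ℝ) :
    scInv y ∈ Icc (-2 : ℝ) 2 ∧ scF (scInv y) = max 0 (min y 1) := by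
  obtain ⟨s, hs, hsF⟩ : ∃ s ∈ Icc (-2 : ℝ) 2, scF s = max 0 (min y 1) := by
    refine intermediate_value_Icc (by norm_num) continuous_scF.continuousOn ?_
    rw [scF_neg_two, scF_two]
    exact ⟨le_max_left _ _, max_le zero_le_one (min_le_right _ _)⟩
  have e : {t : ℝ | t ∈ Icc (-2 : ℝ) 2 ∧ min y 1 ≤ scF t} = Icc s 2 := by
    ext t
    simp only [mem_ofPred_eq, mem_Icc]
    constructor
    · rintro ⟨ht, hy⟩
      refine ⟨(strictMonoOn_scF.le_iff_le hs ht).1 ?_, ht.2⟩
      rw [hsF]
      exact max_le (scF_mem ht).1 hy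
    · rintro ⟨h1, h2⟩
      refine ⟨⟨hs.1.trans h1, h2⟩, ?_⟩
      have := monotone_scF h1
      rw [hsF] at this
      exact (le_max_right _ _).trans this
  have : scInv y = s := by rw [scInv, e, csInf_Icc hs.2]
  rw [this]
  exact ⟨hs, hsF⟩

lemma scF_scInv {y : ℝ} (hy : y ∈ Icc (0 : ℝ) 1) : scF (scInv y) = y := by
  rw [(scInv_spec y).2, min_eq_left hy.2, max_eq_right hy.1]

lemma scInv_scF {t : ℝ} (ht : t ∈ Icc (-2 : ℝ) 2) : scInv (scF t) = t :=
  strictMonoOn_scF.injOn (scInv_spec _).1 ht (scF_scInv (scF_mem ht))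

lemma monotone_scInv : Monotone scInv := fun y z h => by
  refine (strictMonoOn_scF.le_iff_le (scInv_spec y).1 (scInv_spec z).1).1 ?_
  rw [(scInv_spec y).2, (scInv_spec z).2]
  exact max_le_max_left _ (min_le_min_right _ h)

lemma continuous_scInv : Continuous scInv := by
  let G : ℝ → Icc (-2 : ℝ) 2 := fun y => ⟨scInv y, (scInv_spec y).1⟩
  have hG : Monotone G := fun y z h => monotone_scInv h
  have hs : Function.Surjective G := fun t => ⟨scF t, Subtype.ext (scInv_scF t.2)⟩
  exact continuous_subtype_val.comp (hG.continuous_of_surjective hs)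

/-- The substitution `v = scF t`. -/
lemma integral_scDens_comp {g : ℝ → ℝ} (hg : Continuous g) (a b : ℝ) :
    ∫ t in a..b, scDens t * g (scF t) = ∫ v in scF a..scF b, g v := by
  rw [← intervalIntegral.integral_comp_mul_deriv (fun x _ => hasDerivAt_scF x)
    continuous_scDens.continuousOn hg]
  exact integral_congr fun x _ => by simp only [Function.comp_apply]; ring

lemma integral_piece (K i : ℕ) (f : ℝ → ℝ) (hK : 0 < K) (hi : i < K) (hf : Continuous f) :
    (∫ t in (-2 : ℝ)..2, scDens t * f (piece K i t))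
      = K * ∫ t in (scInv ((i : ℝ) / K))..(scInv (((i : ℝ) + 1) / K)), scDens t * f t := by
  have hK' : (0 : ℝ) < K := by exact_mod_cast hK
  have hi' : (i : ℝ) + 1 ≤ K := by exact_mod_cast hi
  have hfs : Continuous fun v => f (scInv v) := hf.comp continuous_scInv
  set a := scInv ((i : ℝ) / K)
  set b := scInv (((i : ℝ) + 1) / K)
  have hi0 : (0 : ℝ) ≤ (i : ℝ) / K := by positivity
  have hi1 : ((i : ℝ) + 1) / K ≤ 1 := by rwa [div_le_one hK']
  have hi01 : (i : ℝ) / K ≤ ((i : ℝ) + 1) / K := by gcongr; linarith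
  have haF : scF a = (i : ℝ) / K := scF_scInv ⟨hi0, hi01.trans hi1⟩
  have hbF : scF b = ((i : ℝ) + 1) / K := scF_scInv ⟨hi0.trans hi01, hi1⟩
  have hR : ∫ t in a..b, scDens t * f t = ∫ v in (i : ℝ) / K..((i : ℝ) + 1) / K, f (scInv v) := by
    rw [← haF, ← hbF, ← integral_scDens_comp hfs]
    refine integral_congr fun t ht => ?_
    have : t ∈ Icc (-2 : ℝ) 2 := by
      rw [uIcc_of_le (monotone_scInv hi01)] at ht
      exact ⟨(scInv_spec _).1.1.trans ht.1, ht.2.trans (scInv_spec _).1.2⟩
    simp only [scInv_scF this]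
  have hG : Continuous fun u : ℝ => f (scInv (((i : ℝ) + u) / K)) := hfs.comp (by fun_prop)
  have hL := integral_scDens_comp hG (-2) 2
  rw [scF_neg_two, scF_two] at hL
  unfold piece
  rw [hL, hR]
  have h2 := integral_comp_div_add (a := 0) (b := 1) (fun v => f (scInv v)) hK'.ne' ((i : ℝ) / K)
  rw [smul_eq_mul, zero_div, zero_add, show (1 : ℝ) / K + i / K = (i + 1) / K by ring] at h2
  rw [← h2]
  exact integral_congr fun u _ => by simp only [add_div, add_comm]

lemma moment_rec (k : ℕ) :
    4 * k * (∫ t in (-2 : ℝ)..2, scDens t * t ^ (k - 1))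
      = (k + 3) * ∫ t in (-2 : ℝ)..2, scDens t * t ^ (k + 1) := by
  have hc : Continuous fun t : ℝ => t ^ k * ((4 - t ^ 2) * Real.sqrt (4 - t ^ 2)) := by fun_prop
  have hd : ∀ t ∈ Ioo (-2 : ℝ) 2,
      HasDerivAt (fun t : ℝ => t ^ k * ((4 - t ^ 2) * Real.sqrt (4 - t ^ 2)))
        (2 * Real.pi * (4 * k * (scDens t * t ^ (k - 1)) - (k + 3) * (scDens t * t ^ (k + 1))))
        t := by
    intro t ht
    have hpos : (0 : ℝ) < 4 - t ^ 2 := by nlinarith [ht.1, ht.2]
    have h1 : HasDerivAt (fun t : ℝ => 4 - t ^ 2) (-(2 * t)) t := by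
      simpa using (hasDerivAt_pow 2 t).const_sub 4
    refine ((hasDerivAt_pow k t).mul (h1.mul (h1.sqrt hpos.ne'))).congr_deriv ?_
    have hs := Real.sq_sqrt hpos.le
    have hs0 : Real.sqrt (4 - t ^ 2) ≠ 0 := (Real.sqrt_pos.2 hpos).ne'
    simp only [scDens, Pi.mul_apply]
    field_simp
    rw [hs]
    rcases k with _ | k
    · simp; ring
    · simp only [Nat.add_sub_cancel, Nat.cast_succ, pow_succ]; ring
  have hint : IntervalIntegrable
      (fun t : ℝ => 2 * Real.pi * (4 * k * (scDens t * t ^ (k - 1))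
        - (k + 3) * (scDens t * t ^ (k + 1)))) volume (-2) 2 := by
    have := continuous_scDens
    exact Continuous.intervalIntegrable (by fun_prop) _ _
  have h := integral_eq_sub_of_hasDeriv_right_of_le (by norm_num) hc.continuousOn
    (fun t ht => (hd t ht).hasDerivWithinAt) hint
  have hi : ∀ (c : ℝ) (n : ℕ), IntervalIntegrable (fun t : ℝ => c * (scDens t * t ^ n)) volume
      (-2) 2 := fun c n => by
    have := continuous_scDens
    exact Continuous.intervalIntegrable (by fun_prop) _ _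
  rw [intervalIntegral.integral_const_mul, intervalIntegral.integral_sub (hi _ _) (hi _ _),
    intervalIntegral.integral_const_mul, intervalIntegral.integral_const_mul] at h
  norm_num [Real.pi_ne_zero] at h
  linarith

lemma moments (n : ℕ) : (∫ t in (-2 : ℝ)..2, scDens t * t ^ n)
    = if Even n then (catalan (n / 2) : ℝ) else 0 := by
  induction n using Nat.twoStepInduction with
  | zero => simp [← scF_eq, scF_two]
  | one => simpa [Nat.not_even_one] using moment_rec 0
  | more n ih _ =>
    have h := moment_rec (n + 1)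
    rw [Nat.add_sub_cancel] at h
    rw [ih] at h
    push_cast at h
    have hn : (0 : ℝ) < (n : ℝ) + 4 := by positivity
    refine mul_left_cancel₀ hn.ne' ?_
    rw [show n + 1 + 1 = n + 2 from rfl, show (n : ℝ) + 1 + 3 = n + 4 by ring] at h
    rw [← h]
    rcases Nat.even_or_odd n with he | ho
    · obtain ⟨m, rfl⟩ := he
      have e1 : Even (m + m) := ⟨m, rfl⟩
      have e2 : Even (m + m + 2) := ⟨m + 1, by omega⟩
      rw [if_pos e1, if_pos e2, show (m + m) / 2 = m by omega,
        show (m + m + 2) / 2 = m + 1 by omega]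
      have hc : (m + 2) * catalan (m + 1) = 2 * (2 * m + 1) * catalan m := by
        refine Nat.eq_of_mul_eq_mul_left (by omega : 0 < m + 1) ?_
        calc (m + 1) * ((m + 2) * catalan (m + 1))
            = (m + 1) * Nat.centralBinom (m + 1) := by
              rw [← succ_mul_catalan_eq_centralBinom]
          _ = 2 * (2 * m + 1) * Nat.centralBinom m := Nat.succ_mul_centralBinom_succ m
          _ = _ := by rw [← succ_mul_catalan_eq_centralBinom]; ring
      have hc' : ((m : ℝ) + 2) * catalan (m + 1) = 2 * (2 * m + 1) * catalan m := by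
        exact_mod_cast hc
      push_cast
      linear_combination (-2 : ℝ) * hc'
    · have e1 : ¬ Even n := Nat.not_even_iff_odd.2 ho
      have e2 : ¬ Even (n + 2) := by simpa [Nat.even_add] using e1
      simp [e1, e2]

lemma phase_dense (f : ℝ → ℂ) (ε : ℝ) (hf : Continuous f) (hε : 0 < ε) :
    ∃ (n : ℕ) (c : ℤ → ℂ), (∫ t in (-2 : ℝ)..2, scDens t *
      ‖f t - ∑ k ∈ Finset.Icc (-(n : ℤ)) n, c k * scPhase t ^ k‖ ^ 2) ≤ ε := by
  have : Fact ((0 : ℝ) < 1) := ⟨one_pos⟩
  set h : ℝ → ℂ := fun v => f (scInv v) with hhdef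
  have hh : Continuous h := hf.comp continuous_scInv
  set D := h 0 - h 1
  set ρ := min (1 / 2) (ε / (4 * (‖D‖ ^ 2 + 1))) with hρdef
  have hρ : 0 < ρ := lt_min (by norm_num) (by positivity)
  have hρ1 : ρ ≤ 1 / 2 := min_le_left _ _
  have hρD : 2 * ‖D‖ ^ 2 * ρ ≤ ε / 2 := by
    have h1 : ρ * (4 * (‖D‖ ^ 2 + 1)) ≤ ε := (le_div_iff₀ (by positivity)).1 (min_le_right _ _)
    linarith
  set η := min 1 (ε / 4) with hηdef
  have hη : 0 < η := lt_min one_pos (by positivity)
  have hη2 : η ^ 2 ≤ ε / 4 :=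
    (pow_le_of_le_one hη.le (min_le_left _ _) two_ne_zero).trans (min_le_right _ _)
  set φ : ℝ → ℝ := fun v => max 0 (1 - (1 - v) / ρ) with hφdef
  have hφc : Continuous φ := by fun_prop
  have hφ0 : ∀ v ≤ 1 - ρ, φ v = 0 := fun v hv => by
    refine max_eq_left (sub_nonpos.2 ?_)
    rw [le_div_iff₀ hρ]
    linarith
  have hφ1 : φ 1 = 1 := by simp [hφdef]
  set h' : ℝ → ℂ := fun v => h v + (φ v : ℂ) * D with hh'def
  have hh' : Continuous h' := by fun_prop
  have hper : h' 0 = h' (0 + 1) := by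
    simp [hh'def, hφ0 0 (by linarith), hφ1, D]
  let F : C(AddCircle (1 : ℝ), ℂ) :=
    ⟨AddCircle.liftIco 1 0 h', AddCircle.liftIco_continuous hper hh'.continuousOn⟩
  have hF : F ∈ closure ((Submodule.span ℂ (range (@fourier 1)) :
      Submodule ℂ C(AddCircle (1 : ℝ), ℂ)) : Set C(AddCircle (1 : ℝ), ℂ)) := by
    rw [← Submodule.topologicalClosure_coe, span_fourier_closure_eq_top]
    exact Submodule.mem_top
  obtain ⟨p, hp, hpd⟩ := Metric.mem_closure_iff.1 hF η hη
  obtain ⟨c, rfl⟩ := Finsupp.mem_span_range_iff_exists_finsupp.1 hp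
  obtain ⟨n, hn⟩ : ∃ n : ℕ, c.support ⊆ Finset.Icc (-(n : ℤ)) n := by
    refine ⟨c.support.sup Int.natAbs, fun k hk => ?_⟩
    have := Finset.le_sup (f := Int.natAbs) hk
    rw [Finset.mem_Icc]
    omega
  refine ⟨n, c, ?_⟩
  set P : ℝ → ℂ := fun v => ∑ k ∈ Finset.Icc (-(n : ℤ)) n, c k * fourier k (v : AddCircle (1 : ℝ))
  have hP : Continuous P := continuous_finsetSum _ fun k _ =>
    continuous_const.mul ((fourier k).continuous.comp (AddCircle.continuous_mk' 1))
  have hclose : ∀ v ∈ Icc (0 : ℝ) 1, ‖h v - P v‖ ^ 2 ≤ 2 * ‖D‖ ^ 2 * φ v ^ 2 + 2 * η ^ 2 := by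
    intro v hv
    have hFv : F (v : AddCircle (1 : ℝ)) = h' v := by
      rcases hv.2.lt_or_eq with h1 | rfl
      · exact AddCircle.liftIco_coe_apply (p := (1 : ℝ)) (f := h') ⟨hv.1, by linarith⟩
      · rw [AddCircle.coe_period, ← QuotientAddGroup.mk_zero]
        exact (AddCircle.liftIco_coe_apply (p := (1 : ℝ)) (f := h') (x := (0 : ℝ))
          ⟨le_rfl, by norm_num⟩).trans (by simpa using hper)
    have hPv : ‖h' v - P v‖ ≤ η := by
      rw [dist_eq_norm] at hpd
      refine le_trans (le_of_eq ?_) ((ContinuousMap.norm_coe_le_norm _ (v : AddCircle (1 : ℝ))).trans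
        hpd.le)
      rw [ContinuousMap.sub_apply, hFv, Finsupp.sum, ContinuousMap.sum_apply,
        Finset.sum_subset hn (fun k _ hk => by simp [Finsupp.notMem_support_iff.1 hk])]
      rfl
    have h3 : ‖h v - P v‖ ≤ ‖D‖ * |φ v| + ‖h' v - P v‖ := by
      calc ‖h v - P v‖ = ‖-((φ v : ℂ) * D) + (h' v - P v)‖ := by
            congr 1; simp only [hh'def]; ring
        _ ≤ _ := by
            refine (norm_add_le _ _).trans (le_of_eq ?_)
            rw [norm_neg, norm_mul, Complex.norm_real, Real.norm_eq_abs, mul_comm]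
    calc ‖h v - P v‖ ^ 2 ≤ (‖D‖ * |φ v| + η) ^ 2 :=
          pow_le_pow_left₀ (norm_nonneg _) (h3.trans (by linarith)) 2
      _ ≤ 2 * ((‖D‖ * |φ v|) ^ 2 + η ^ 2) := add_sq_le
      _ = _ := by rw [mul_pow, sq_abs]; ring
  have hφint : ∫ v in (0 : ℝ)..1, φ v ^ 2 ≤ ρ := by
    have hi : ∀ a b : ℝ, IntervalIntegrable (fun v => φ v ^ 2) volume a b :=
      fun a b => Continuous.intervalIntegrable (by fun_prop) a b
    rw [← integral_add_adjacent_intervals (hi 0 (1 - ρ)) (hi _ 1),
      integral_congr (g := fun _ => (0 : ℝ)) (fun v hv => by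
        rw [uIcc_of_le (by linarith)] at hv
        simp [hφ0 v hv.2]), intervalIntegral.integral_zero, zero_add]
    calc ∫ v in (1 - ρ)..1, φ v ^ 2 ≤ ∫ _v in (1 - ρ)..1, (1 : ℝ) := by
          refine integral_mono_on (by linarith) (hi _ _) intervalIntegrable_const fun v hv => ?_
          have h0 : 0 ≤ φ v := le_max_left _ _
          refine pow_le_one₀ h0 (max_le zero_le_one ?_)
          have : 0 ≤ (1 - v) / ρ := div_nonneg (by linarith [hv.2]) hρ.le
          linarith
      _ = ρ := by simp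
  have hg : Continuous fun v => ‖h v - P v‖ ^ 2 := by fun_prop
  calc ∫ t in (-2 : ℝ)..2, scDens t *
        ‖f t - ∑ k ∈ Finset.Icc (-(n : ℤ)) n, c k * scPhase t ^ k‖ ^ 2
      = ∫ t in (-2 : ℝ)..2, scDens t * ‖h (scF t) - P (scF t)‖ ^ 2 := by
        refine integral_congr fun t ht => ?_
        rw [uIcc_of_le (by norm_num)] at ht
        have e1 : h (scF t) = f t := congrArg f (scInv_scF ht)
        have e2 : ∀ k : ℤ, scPhase t ^ k = fourier k ((scF t : ℝ) : AddCircle (1 : ℝ)) := by
          intro k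
          rw [fourier_coe_apply, scPhase, ← Complex.exp_int_mul]
          congr 1
          push_cast
          ring
        simp only [P, e1, e2]
    _ = ∫ v in (0 : ℝ)..1, ‖h v - P v‖ ^ 2 := by
        rw [integral_scDens_comp hg, scF_neg_two, scF_two]
    _ ≤ ∫ v in (0 : ℝ)..1, (2 * ‖D‖ ^ 2 * φ v ^ 2 + 2 * η ^ 2) :=
        integral_mono_on zero_le_one (hg.intervalIntegrable _ _)
          (Continuous.intervalIntegrable (by fun_prop) _ _) hclose
    _ = 2 * ‖D‖ ^ 2 * (∫ v in (0 : ℝ)..1, φ v ^ 2) + 2 * η ^ 2 := by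
        rw [intervalIntegral.integral_add (Continuous.intervalIntegrable (by fun_prop) _ _)
          intervalIntegrable_const, intervalIntegral.integral_const_mul]
        simp
    _ ≤ 2 * ‖D‖ ^ 2 * ρ + 2 * η ^ 2 := by gcongr
    _ ≤ ε := by linarith

end Semi

open Semi in
theorem semiGoal : SemiGoal :=
  ⟨continuous_scF, monotone_scF, strictMonoOn_scF, scF_neg_two, scF_two, continuous_scInv,
    monotone_scInv, fun y => (scInv_spec y).1, fun _ hy => scF_scInv hy, fun _ ht => scInv_scF ht,
    moments, fun K i f hK hi hf => integral_piece K i f hK hi hf, phase_dense⟩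

end Vale.Agent.P086
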