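import Vale.Agent.P086.Spec
import Vale.Agent.P086.Lemmas
import Vale.Agent.P086.Core.Calc
import Vale.Agent.P086.Core.Semi

/-!
# From free semicircular families to free bases

Centred powers of different members have product of trace zero (induction on the number of
syllables and on the first exponent, through the recursion), hence so do centred elements of the
algebras of the members, and the Haar unitaries form a free basis.
-/

noncomputable section

namespace Vale.Agent.P086

open scoped InnerProductSpace BigOperators
open MeasureTheory

universe u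

namespace Conv

variable {H : Type u} [NormedAddCommGroup H] [InnerProductSpace ℂ H] [CompleteSpace H]
variable {Ω : H} {ι : Type} [DecidableEq ι] {X : ι → H →L[ℂ] H}

/-- A centred power. -/
def cen (X : ι → H →L[ℂ] H) (s : ι × ℕ) : H →L[ℂ] H := X s.1 ^ s.2 - scMoment s.2 • 1

/-- A product of centred powers. -/
def prodE (X : ι → H →L[ℂ] H) (R : List (ι × ℕ)) : H →L[ℂ] H := (R.map (cen X)).prod

/-- The part of the recursion coming from the syllables after the prefix `P`. -/
def rest (Ω : H) (X : ι → H →L[ℂ] H) (i : ι) : (H →L[ℂ] H) → List (ι × ℕ) → ℂ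
  | _, [] => 0
  | P, (j, n) :: R =>
      (if j = i then ∑ a ∈ Finset.range n,
        tr Ω (P * X i ^ a) * tr Ω (X i ^ (n - 1 - a) * prodE X R) else 0)
      + rest Ω X i (P * cen X (j, n)) R

lemma tr_sub_smul (a b : H →L[ℂ] H) (c : ℂ) : tr Ω (a - c • b) = tr Ω a - c * tr Ω b := by
  rw [sub_eq_add_neg, ← neg_smul, tr_add, tr_smul]
  ring

lemma rest_comb (i : ι) (c : ℂ) : ∀ (R : List (ι × ℕ)) (P Q : H →L[ℂ] H),
    rest Ω X i (P - c • Q) R = rest Ω X i P R - c * rest Ω X i Q R
  | [], _, _ => by simp [rest]
  | (j, n) :: R, P, Q => by
      simp only [rest]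
      rw [sub_mul, smul_mul_assoc, rest_comb i c R]
      split_ifs
      · have : ∀ a, tr Ω ((P - c • Q) * X i ^ a) * tr Ω (X i ^ (n - 1 - a) * prodE X R) =
            tr Ω (P * X i ^ a) * tr Ω (X i ^ (n - 1 - a) * prodE X R) -
              c * (tr Ω (Q * X i ^ a) * tr Ω (X i ^ (n - 1 - a) * prodE X R)) := fun a => by
          rw [sub_mul, smul_mul_assoc, tr_sub_smul]
          ring
        simp only [this, Finset.sum_sub_distrib, ← Finset.mul_sum]
        ring
      · ring

omit [CompleteSpace H] [DecidableEq ι] in
lemma wprod_replicate (i : ι) (m : ℕ) : wprod X (List.replicate m i) = X i ^ m := by simp [wprod]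

lemma split_range (h : IsSC Ω X) (i : ι) (l : List ι) :
    tr Ω (X i * wprod X l) = ∑ k ∈ Finset.range l.length,
      if l[k]? = some i then tr Ω (wprod X (l.take k)) * tr Ω (wprod X (l.drop (k + 1))) else 0 := by
  rw [h.split, ← Fin.sum_univ_eq_sum_range]
  refine Finset.sum_congr rfl fun k _ => ?_
  simp

/-- The recursion for a word followed by centred powers. -/
lemma split_prod (h : IsSC Ω X) (i : ι) : ∀ (R : List (ι × ℕ)) (p : List ι),
    tr Ω (X i * (wprod X p * prodE X R)) =
      (∑ k ∈ Finset.range p.length, if p[k]? = some i then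
        tr Ω (wprod X (p.take k)) * tr Ω (wprod X (p.drop (k + 1)) * prodE X R) else 0)
      + rest Ω X i (wprod X p) R
  | [], p => by simp [prodE, rest, split_range h]
  | (j, n) :: R, p => by
      have hc : ∀ q : H →L[ℂ] H, q * cen X (j, n) = q * X j ^ n - scMoment n • q := fun q => by
        simp [cen, mul_sub]
      have e : ∀ q : H →L[ℂ] H, q * prodE X ((j, n) :: R) =
          q * X j ^ n * prodE X R - scMoment n • (q * prodE X R) := fun q => by
        rw [prodE, List.map_cons, List.prod_cons, ← mul_assoc, hc, sub_mul, smul_mul_assoc]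
        rfl
      have hp : wprod X p * X j ^ n = wprod X (p ++ List.replicate n j) := by
        rw [wprod_append, wprod_replicate]
      rw [e, mul_sub, mul_smul_comm, tr_sub_smul, hp, split_prod h i R, split_prod h i R,
        List.length_append, List.length_replicate, Finset.sum_range_add]
      have h1 : ∀ k ∈ Finset.range p.length,
          (if (p ++ List.replicate n j)[k]? = some i then
            tr Ω (wprod X ((p ++ List.replicate n j).take k)) *
              tr Ω (wprod X ((p ++ List.replicate n j).drop (k + 1)) * prodE X R) else 0)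
          = (if p[k]? = some i then tr Ω (wprod X (p.take k)) *
              tr Ω (wprod X (p.drop (k + 1)) * prodE X ((j, n) :: R)) else 0)
            + scMoment n * (if p[k]? = some i then tr Ω (wprod X (p.take k)) *
              tr Ω (wprod X (p.drop (k + 1)) * prodE X R) else 0) := by
        intro k hk
        rw [Finset.mem_range] at hk
        rw [List.getElem?_append_left hk, List.take_append_of_le_length hk.le,
          List.drop_append_of_le_length hk, wprod_append, wprod_replicate]
        split_ifs
        · rw [e, tr_sub_smul]; ring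
        · ring
      have h2 : ∀ a ∈ Finset.range n,
          (if (p ++ List.replicate n j)[p.length + a]? = some i then
            tr Ω (wprod X ((p ++ List.replicate n j).take (p.length + a))) *
              tr Ω (wprod X ((p ++ List.replicate n j).drop (p.length + a + 1)) * prodE X R) else 0)
          = if j = i then tr Ω (wprod X p * X i ^ a) *
              tr Ω (X i ^ (n - 1 - a) * prodE X R) else 0 := by
        intro a ha
        rw [Finset.mem_range] at ha
        rw [List.getElem?_append_right (by omega), Nat.add_sub_cancel_left, List.getElem?_replicate,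
          if_pos ha, List.take_append, List.drop_append, List.take_of_length_le (by omega),
          List.drop_eq_nil_of_le (show p.length ≤ p.length + a + 1 by omega),
          Nat.add_sub_cancel_left, show p.length + a + 1 - p.length = a + 1 by omega,
          List.take_replicate, List.drop_replicate, wprod_append, wprod_replicate, min_eq_left ha.le,
          List.nil_append, wprod_replicate, show n - (a + 1) = n - 1 - a by omega]
        by_cases hji : j = i
        · subst hji; simp
        · simp [hji]
      rw [Finset.sum_congr rfl h1, Finset.sum_congr rfl h2, Finset.sum_add_distrib,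
        ← Finset.mul_sum, rest, ← hp, hc, rest_comb]
      split_ifs
      · ring
      · simp only [Finset.sum_const_zero]; ring

omit [CompleteSpace H] [DecidableEq ι] in
lemma prodE_append (L L' : List (ι × ℕ)) : prodE X (L ++ L') = prodE X L * prodE X L' := by
  simp [prodE]

omit [CompleteSpace H] [DecidableEq ι] in
lemma pow_eq_cen (i : ι) (b : ℕ) : X i ^ b = cen X (i, b) + scMoment b • 1 := by simp [cen]

/-- Adjacent syllables have different letters. -/
abbrev Alt (l : List ι) : Prop := l.IsChain (· ≠ ·)

/-- Alternating products of centred powers have trace zero. -/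
theorem tr_prodE (h : IsSC Ω X) : ∀ R : List (ι × ℕ), R ≠ [] → Alt (R.map Prod.fst) →
    tr Ω (prodE X R) = 0 := by
  suffices hM : ∀ (M : ℕ) (R : List (ι × ℕ)), R.length ≤ M → R ≠ [] → Alt (R.map Prod.fst) →
      tr Ω (prodE X R) = 0 from fun R h1 h2 => hM _ R le_rfl h1 h2
  intro M
  induction M with
  | zero => intro R hR h0; exact absurd (List.length_eq_zero_iff.1 (Nat.le_zero.1 hR)) h0
  | succ M IH =>
    -- a power in front of at most `M` syllables
    have hQ : ∀ (n : ℕ) (i : ι) (R : List (ι × ℕ)), R ≠ [] → R.length ≤ M →
        Alt (i :: R.map Prod.fst) → tr Ω (X i ^ n * prodE X R) = 0 := by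
      intro n
      induction n using Nat.strong_induction_on with
      | _ n IHn =>
        intro i R h0 hlen halt
        cases n with
        | zero => rw [pow_zero, one_mul]; exact IH R hlen h0 halt.tail
        | succ n =>
          rw [pow_succ', mul_assoc, ← wprod_replicate (X := X) i n, split_prod h i R]
          have hs : ∀ k ∈ Finset.range (List.replicate n i).length,
              (if (List.replicate n i)[k]? = some i then
                tr Ω (wprod X ((List.replicate n i).take k)) *
                  tr Ω (wprod X ((List.replicate n i).drop (k + 1)) * prodE X R) else 0) = 0 := by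
            intro k hk
            rw [List.drop_replicate, wprod_replicate, IHn _ (by omega) i R h0 hlen halt, mul_zero,
              ite_self]
          rw [Finset.sum_eq_zero hs, zero_add, wprod_replicate]
          -- the syllables after the power
          suffices hr : ∀ R' L : List (ι × ℕ), L ++ R' = R →
              rest Ω X i (X i ^ n * prodE X L) R' = 0 by
            simpa [prodE] using hr R [] rfl
          intro R'
          induction R' with
          | nil => intros; rfl
          | cons s R' IHR =>
            obtain ⟨j, m⟩ := s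
            intro L hL
            simp only [rest]
            rw [mul_assoc, show prodE X L * cen X (j, m) = prodE X (L ++ [(j, m)]) by
              simp [prodE], IHR (L ++ [(j, m)]) (by simp [← hL]), add_zero]
            split_ifs with hji
            · subst hji
              have hLne : L ≠ [] := by
                rintro rfl
                subst hL
                exact (List.isChain_cons_cons.1 halt).1 rfl
              have hlenL : L.length + R'.length + 1 = R.length := by
                subst hL; simp; omega
              have hRalt : Alt (R.map Prod.fst) := halt.tail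
              refine Finset.sum_eq_zero fun a ha => ?_
              rcases eq_or_ne R' [] with rfl | hR'
              · -- the last syllable: the left factor vanishes
                have hchain : Alt (j :: (L ++ [(j, a)]).map Prod.fst) := by
                  subst hL; simpa using halt
                have e : X j ^ n * prodE X L * X j ^ a = X j ^ n * prodE X (L ++ [(j, a)]) +
                    scMoment a • (X j ^ n * prodE X L) := by
                  rw [pow_eq_cen j a, mul_add, mul_smul_comm, mul_one, mul_assoc]
                  simp [prodE]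
                rw [e, tr_add, tr_smul, IHn n (by omega) j _ (by simp)
                    (by simp at hlenL ⊢; omega) hchain,
                  IHn n (by omega) j L hLne (by omega) ?_]
                · simp
                · subst hL
                  rw [List.map_append, ← List.cons_append] at halt
                  exact halt.left_of_append
              · -- otherwise the right factor vanishes
                have hchain : Alt (j :: R'.map Prod.fst) := by
                  subst hL
                  rw [List.map_append] at hRalt
                  exact hRalt.right_of_append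
                have hpos : 0 < L.length := List.length_pos_of_ne_nil hLne
                rw [pow_eq_cen j (m - 1 - a), add_mul, tr_add, smul_mul_assoc, one_mul, tr_smul,
                  IH R' (by omega) hR' hchain.tail]
                have := IH ((j, m - 1 - a) :: R') (by simp; omega) (by simp)
                  (by simpa using hchain)
                rw [prodE, List.map_cons, List.prod_cons] at this
                simp [prodE, this]
            · rfl
    intro R hlen h0 halt
    cases R with
    | nil => exact absurd rfl h0
    | cons s R =>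
      obtain ⟨i, n⟩ := s
      rw [prodE, List.map_cons, List.prod_cons, cen, sub_mul, smul_mul_assoc, one_mul, tr_sub_smul]
      rcases eq_or_ne R [] with rfl | hR
      · simp only [List.map_nil, List.prod_nil, mul_one]
        rw [h.tr_pow i n]
        simp [tr, inner_self_eq_norm_sq_to_K, h.unit]
      · rw [← prodE, hQ n i R hR (by simpa using hlen) (by simpa using halt),
          IH R (by simpa using hlen) hR (by simpa using halt.tail)]
        ring

/-- Centred elements of the algebra of one member. -/
def centred (X : ι → H →L[ℂ] H) (i : ι) : Submodule ℂ (H →L[ℂ] H) :=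
  (Submodule.span ℂ (Set.range fun n => cen X (i, n))).topologicalClosure

/-- The linear functional `a ↦ tr (P a Q)`. -/
def trMul (Ω : H) (P Q : H →L[ℂ] H) : (H →L[ℂ] H) →L[ℂ] ℂ :=
  (innerSL ℂ Ω).comp ((P.comp (ContinuousLinearMap.apply ℂ H (Q Ω))))

omit [CompleteSpace H] [DecidableEq ι] in
lemma trMul_apply (P Q a : H →L[ℂ] H) : trMul Ω P Q a = tr Ω (P * a * Q) := rfl

/-- Alternating products of centred elements have trace zero. -/
theorem tr_centred (h : IsSC Ω X) : ∀ (L : List (ι × (H →L[ℂ] H))) (R : List (ι × ℕ)),
    (∀ s ∈ L, s.2 ∈ centred X s.1) → (R ≠ [] ∨ L ≠ []) →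
    Alt (R.map Prod.fst ++ L.map Prod.fst) →
    tr Ω (prodE X R * (L.map Prod.snd).prod) = 0
  | [], R, _, h0, halt => by
      simpa using tr_prodE h R (h0.resolve_right (not_not_intro rfl)) (by simpa using halt)
  | (i, a) :: L, R, hL, _, halt => by
      have hker : centred X i ≤
          LinearMap.ker (trMul Ω (prodE X R) (L.map Prod.snd).prod).toLinearMap := by
        refine Submodule.topologicalClosure_minimal _ (Submodule.span_le.2 ?_)
          (trMul Ω (prodE X R) (L.map Prod.snd).prod).isClosed_ker
        rintro _ ⟨n, rfl⟩
        simp only [SetLike.mem_coe, LinearMap.mem_ker, ContinuousLinearMap.coe_coe, trMul_apply]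
        have := tr_centred h L (R ++ [(i, n)]) (fun s hs => hL s (by simp [hs])) (Or.inl (by simp))
          (by simpa using halt)
        simpa [prodE_append, prodE, mul_assoc] using this
      have := hker (hL (i, a) (by simp))
      simpa [trMul_apply, mul_assoc] using this

/-- Continuous functions minus their traces are centred. -/
lemma sub_tr_mem (h : IsSC Ω X) (i : ι) {a : H →L[ℂ] H}
    (ha : a ∈ StarAlgebra.elemental ℂ (X i)) : a - tr Ω a • 1 ∈ centred X i := by
  set F : (H →L[ℂ] H) →L[ℂ] (H →L[ℂ] H) :=
    ContinuousLinearMap.id ℂ _ - (trMul Ω 1 1).smulRight (1 : H →L[ℂ] H) with hF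
  have hFa : ∀ x, F x = x - tr Ω x • 1 := fun x => by simp [hF, trMul_apply]
  set N := (centred X i).comap F.toLinearMap with hN
  have hNc : IsClosed (N : Set (H →L[ℂ] H)) :=
    (Submodule.isClosed_topologicalClosure _).preimage F.continuous
  suffices hsub : (StarAlgebra.adjoin ℂ {X i} : Set (H →L[ℂ] H)) ⊆ N by
    have := hNc.closure_subset_iff.2 hsub ha
    simpa [hN, hFa] using this
  intro x hx
  have hx' : x ∈ Algebra.adjoin ℂ ({X i} : Set (H →L[ℂ] H)) := by
    have := (StarAlgebra.adjoin_toSubalgebra (R := ℂ) ({X i} : Set (H →L[ℂ] H))).le hx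
    rwa [Set.star_singleton, (h.sa i).star_eq, Set.union_self] at this
  rw [Algebra.adjoin_singleton_eq_range_aeval, AlgHom.mem_range] at hx'
  obtain ⟨p, rfl⟩ := hx'
  show F (Polynomial.aeval (X i) p) ∈ centred X i
  clear hx
  induction p using Polynomial.induction_on' with
  | add p q hp hq => rw [map_add, map_add]; exact add_mem hp hq
  | monomial n c =>
    rw [Polynomial.aeval_monomial, ← Algebra.smul_def, map_smul]
    refine Submodule.smul_mem _ c (Submodule.le_topologicalClosure _ ?_)
    rw [hFa, h.tr_pow i n]
    exact Submodule.subset_span ⟨n, rfl⟩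

/-- The Haar unitary to an integer power. -/
def upow (a : H →L[ℂ] H) (k : ℤ) : H →L[ℂ] H := cfc (fun z : ℂ => scPhase z.re ^ k) a

lemma scPhase_ne_zero (t : ℝ) : scPhase t ≠ 0 := Complex.exp_ne_zero _

lemma continuous_phase_zpow (k : ℤ) : Continuous fun t : ℝ => scPhase t ^ k := by
  have : Continuous scPhase := by
    unfold scPhase
    have := Semi.continuous_scF
    fun_prop
  exact this.zpow₀ k fun t => Or.inl (scPhase_ne_zero t)

lemma continuous_phase_re (k : ℤ) : Continuous fun z : ℂ => scPhase z.re ^ k :=
  (continuous_phase_zpow k).comp Complex.continuous_re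

lemma upow_mul (a : H →L[ℂ] H) (k l : ℤ) : upow a k * upow a l = upow a (k + l) := by
  rw [upow, upow, upow, ← cfc_mul _ _ a (continuous_phase_re k).continuousOn
    (continuous_phase_re l).continuousOn]
  exact cfc_congr fun z _ => (zpow_add₀ (scPhase_ne_zero _) _ _).symm

lemma upow_zero (a : H →L[ℂ] H) (ha : IsSelfAdjoint a) : upow a 0 = 1 := by
  have : IsStarNormal a := ha.isStarNormal
  rw [upow, show (fun z : ℂ => scPhase z.re ^ (0 : ℤ)) = fun _ => 1 by simp]
  exact cfc_const_one ℂ a

lemma conj_phase (t : ℝ) : starRingEnd ℂ (scPhase t) = (scPhase t)⁻¹ := by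
  rw [scPhase, ← Complex.exp_conj, ← Complex.exp_neg, map_mul, Complex.conj_I, Complex.conj_ofReal,
    mul_neg]

lemma star_upow (a : H →L[ℂ] H) (k : ℤ) : star (upow a k) = upow a (-k) := by
  rw [upow, upow, ← cfc_star]
  refine cfc_congr fun z _ => ?_
  rw [← starRingEnd_apply, map_zpow₀, conj_phase, inv_zpow, zpow_neg]

lemma scU_eq (a : H →L[ℂ] H) : scU a = upow a 1 := by simp [upow, scU]

lemma integral_phase_zpow {k : ℤ} (hk : k ≠ 0) :
    ∫ t in (-2 : ℝ)..2, (scDens t : ℂ) * scPhase t ^ k = 0 := by
  set c : ℂ := (k : ℂ) * (2 * Real.pi * Complex.I) with hc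
  have hc0 : c ≠ 0 := by
    simp [hc, hk, Real.pi_ne_zero]
  have e : ∀ t : ℝ, scPhase t ^ k = Complex.exp (c * (scF t : ℂ)) := fun t => by
    rw [scPhase, ← Complex.exp_int_mul]
    push_cast
    congr 1
    ring
  have hd : ∀ t ∈ Set.uIcc (-2 : ℝ) 2,
      HasDerivAt (fun t : ℝ => Complex.exp (c * (scF t : ℂ)) / c)
        ((scDens t : ℂ) * scPhase t ^ k) t := fun t _ => by
    rw [e]
    have h1 := (((Semi.hasDerivAt_scF t).ofReal_comp.const_mul c).cexp).div_const c
    refine h1.congr_deriv ?_
    field_simp
  rw [intervalIntegral.integral_eq_sub_of_hasDerivAt hd]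
  · rw [Semi.scF_two, Semi.scF_neg_two, sub_eq_zero]
    congr 1
    rw [Complex.ofReal_one, mul_one, hc, Complex.exp_int_mul_two_pi_mul_I]
    simp
  · exact ((Complex.continuous_ofReal.comp Semi.continuous_scDens).mul
      (continuous_phase_zpow k)).intervalIntegrable _ _

/-- A reduced word as alternating syllables. -/
lemma syllables (ha : ∀ i, IsSelfAdjoint (X i)) : ∀ w : List (ι × Bool),
    FreeGroup.IsReduced w → w ≠ [] →
    ∃ (i : ι) (k : ℤ) (L : List (ι × ℤ)), w.head?.map Prod.fst = some i ∧
      (∀ b, w.head? = some (i, b) → if b then 0 < k else k < 0) ∧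
      (∀ s ∈ (i, k) :: L, s.2 ≠ 0) ∧ Alt (((i, k) :: L).map Prod.fst) ∧
      (((i, k) :: L).map fun s => upow (X s.1) s.2).prod =
        (w.map fun p => if p.2 then scU (X p.1) else star (scU (X p.1))).prod
  | [], _, h0 => absurd rfl h0
  | (i, b) :: w, hw, _ => by
      have hb : (if b then scU (X i) else star (scU (X i))) =
          upow (X i) (if b then 1 else -1) := by
        cases b <;> simp [scU_eq, star_upow]
      cases w with
      | nil =>
        refine ⟨i, if b then 1 else -1, [], rfl, ?_, ?_, List.isChain_singleton _, ?_⟩
        · intro b' hb'; cases b <;> simp_all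
        · intro s hs; cases b <;> simp_all
        · simp [hb]
      | cons q w =>
        obtain ⟨hstep, hw'⟩ := List.isChain_cons_cons.1 hw
        obtain ⟨j, k, L, hj, hsg, hne, halt, hprod⟩ := syllables ha (q :: w) hw' (by simp)
        obtain ⟨q1, q2⟩ := q
        simp only [List.head?_cons, Option.map_some, Option.some.injEq] at hj
        subst hj
        have hs := hsg q2 (by simp)
        simp only [List.map_cons, List.prod_cons] at hprod
        by_cases hij : i = q1
        · subst hij
          obtain rfl : b = q2 := hstep rfl
          refine ⟨i, (if b then 1 else -1) + k, L, rfl, ?_, ?_, by simpa using halt, ?_⟩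
          · intro b' hb'
            simp only [List.head?_cons, Option.some.injEq, Prod.mk.injEq, true_and] at hb'
            subst hb'
            cases b <;> simp_all <;> omega
          · intro s hs'
            rcases List.mem_cons.1 hs' with rfl | hs'
            · cases b <;> simp_all <;> omega
            · exact hne s (List.mem_cons_of_mem _ hs')
          · simp only [List.map_cons, List.prod_cons]
            rw [← hprod, hb, ← upow_mul, mul_assoc]
        · refine ⟨i, if b then 1 else -1, (q1, k) :: L, rfl, ?_, ?_, ?_, ?_⟩
          · intro b' hb'; cases b <;> simp_all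
          · intro s hs'
            rcases List.mem_cons.1 hs' with rfl | hs'
            · cases b <;> simp
            · exact hne s hs'
          · simp only [List.map_cons] at halt ⊢
            exact List.isChain_cons_cons.2 ⟨hij, halt⟩
          · simp only [List.map_cons, List.prod_cons]
            rw [← hprod, hb]

end Conv

open Conv in
/-- **The conversion.** -/
theorem convGoal (hS : SemiGoal) (hC : CalcGoal.{u}) (hO : OpsGoal.{u}) : ConvGoal.{u} := by
  intro H _ _ _ Ω ι _ _ X h
  obtain ⟨-, -, -, -, -, -, -, -, -, -, -, -, hdense⟩ := hS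
  have hsc := h.toIsSC
  have hn : ∀ i, IsStarNormal (X i) := fun i => (h.sa i).isStarNormal
  have hup : ∀ i k, upow (X i) k ∈ vn {X i} ∧
      tr Ω (upow (X i) k) = ∫ t in (-2 : ℝ)..2, (scDens t : ℂ) * scPhase t ^ k :=
    fun i k => (hC Ω X hsc i).1 (fun t => scPhase t ^ k) (continuous_phase_zpow k)
  have hUmem : ∀ i, scU (X i) ∈ vn {X i} := fun i => by rw [scU_eq]; exact (hup i 1).1
  have hsingle : ∀ i, vn {X i} ⊆ vn (Set.range X) := fun i =>
    vn_mono (Set.singleton_subset_iff.2 ⟨i, rfl⟩)
  -- each member is recovered from its unitary
  have hback : ∀ i, X i ∈ vn {scU (X i)} := by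
    intro i
    obtain ⟨-, -, -, hlim, -, -⟩ := hO Ω (Set.range X) h.cyclic h.tracial
    refine hlim {scU (X i)} (Set.singleton_subset_iff.2 (hsingle i (hUmem i))) (X i)
      (subset_vn _ ⟨i, rfl⟩) fun ε hε => ?_
    obtain ⟨n, c, hc⟩ := hdense (fun t => (t : ℂ)) (ε ^ 2) (by fun_prop) (by positivity)
    have hkmem : ∀ k : ℤ, upow (X i) k ∈ vn {scU (X i)} := by
      intro k
      induction k using Int.induction_on with
      | zero => rw [upow_zero _ (h.sa i)]; exact vn_one
      | succ m ih => rw [← upow_mul, ← scU_eq]; exact vn_mul ih (subset_vn _ rfl)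
      | pred m ih =>
        rw [sub_eq_add_neg, ← upow_mul, ← star_upow (X i) 1, ← scU_eq]
        exact vn_mul ih (vn_star (subset_vn _ rfl))
    set g : ℂ → ℂ := fun z =>
      (z.re : ℂ) - ∑ k ∈ Finset.Icc (-(n : ℤ)) n, c k * scPhase z.re ^ k with hg
    have hgc : Continuous g := by
      refine (Complex.continuous_ofReal.comp Complex.continuous_re).sub
        (continuous_finsetSum _ fun k _ => continuous_const.mul (continuous_phase_re k))
    refine ⟨∑ k ∈ Finset.Icc (-(n : ℤ)) n, c k • upow (X i) k,
      vn_sum _ fun k _ => vn_smul _ (hkmem k), ?_⟩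
    have hdiff : X i - ∑ k ∈ Finset.Icc (-(n : ℤ)) n, c k • upow (X i) k = cfc g (X i) := by
      have h1 : cfc (fun z : ℂ => (z.re : ℂ)) (X i) = X i :=
        (cfc_real_eq_complex (fun t : ℝ => t) (h.sa i)).symm.trans (cfc_id' ℝ (X i) (h.sa i))
      have h2 : cfc (fun z : ℂ => ∑ k ∈ Finset.Icc (-(n : ℤ)) n, c k * scPhase z.re ^ k) (X i) =
          ∑ k ∈ Finset.Icc (-(n : ℤ)) n, c k • upow (X i) k := by
        rw [show (fun z : ℂ => ∑ k ∈ Finset.Icc (-(n : ℤ)) n, c k * scPhase z.re ^ k) =
            ∑ k ∈ Finset.Icc (-(n : ℤ)) n, fun z : ℂ => c k * scPhase z.re ^ k from by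
          funext z; simp [Finset.sum_apply],
          cfc_sum (fun k => fun z : ℂ => c k * scPhase z.re ^ k) (X i) _
            (fun k _ => (continuous_const.mul (continuous_phase_re k)).continuousOn)]
        exact Finset.sum_congr rfl fun k _ =>
          cfc_const_mul (c k) _ (X i) (continuous_phase_re k).continuousOn
      rw [hg, cfc_sub (fun z : ℂ => (z.re : ℂ))
        (fun z : ℂ => ∑ k ∈ Finset.Icc (-(n : ℤ)) n, c k * scPhase z.re ^ k) (X i)
        (Complex.continuous_ofReal.comp Complex.continuous_re).continuousOn
        (continuous_finsetSum _ fun k _ =>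
          continuous_const.mul (continuous_phase_re k)).continuousOn, h1, h2]
    rw [hdiff]
    have hsq : ((‖cfc g (X i) Ω‖ ^ 2 : ℝ) : ℂ) = ((∫ t in (-2 : ℝ)..2, scDens t *
        ‖(t : ℂ) - ∑ k ∈ Finset.Icc (-(n : ℤ)) n, c k * scPhase t ^ k‖ ^ 2 : ℝ) : ℂ) := by
      rw [← tr_star_mul, ← cfc_star, ← cfc_mul _ _ (X i) hgc.star.continuousOn hgc.continuousOn]
      have hcont : Continuous fun t : ℝ =>
          ‖(t : ℂ) - ∑ k ∈ Finset.Icc (-(n : ℤ)) n, c k * scPhase t ^ k‖ ^ 2 :=
        ((Complex.continuous_ofReal.sub (continuous_finsetSum _ fun k _ =>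
          continuous_const.mul (continuous_phase_zpow k))).norm).pow 2
      obtain ⟨he, -, ht⟩ := (hC Ω X hsc i).2 _ hcont
      rw [← ht, he]
      congr 1
      refine cfc_congr fun z _ => ?_
      simp only [hg, RCLike.star_def, RCLike.conj_mul]
      push_cast
      rfl
    have hle := (Complex.ofReal_inj.1 hsq).le.trans hc
    exact (pow_le_pow_iff_left₀ (norm_nonneg _) hε.le two_ne_zero).1 hle
  have hvn : ∀ i, vn {scU (X i)} = vn {X i} := fun i =>
    Set.Subset.antisymm (vn_le (Set.singleton_subset_iff.2 (hUmem i)))
      (vn_le (Set.singleton_subset_iff.2 (hback i)))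
  refine ⟨⟨h.unit, fun i => ?_, fun g => ?_, ?_⟩, hvn⟩
  · have := hn i
    rw [scU, cfc_unitary_iff _ _ (hn i) (by
      simpa using (continuous_phase_re 1).continuousOn)]
    intro z _
    rw [← starRingEnd_apply, conj_phase, inv_mul_cancel₀ (scPhase_ne_zero _)]
  · split_ifs with hg
    · simp [hg, fgWord, tr, inner_self_eq_norm_sq_to_K, h.unit]
    · obtain ⟨i, k, L, -, -, hne, halt, hprod⟩ := syllables h.sa g.toWord
        FreeGroup.isReduced_toWord (fun e => hg (FreeGroup.toWord_eq_nil_iff.1 e))
      rw [fgWord, ← hprod]
      have hmem : ∀ s ∈ (((i, k) :: L).map fun s => (s.1, upow (X s.1) s.2)),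
          s.2 ∈ centred X s.1 := by
        intro s hs
        obtain ⟨⟨j, l⟩, hjl, rfl⟩ := List.mem_map.1 hs
        have h0 : tr Ω (upow (X j) l) = 0 :=
          (hup j l).2.trans (integral_phase_zpow (hne _ hjl))
        have := sub_tr_mem hsc j (a := upow (X j) l) (cfc_mem_elemental _ _)
        simpa [h0] using this
      have := tr_centred hsc (((i, k) :: L).map fun s => (s.1, upow (X s.1) s.2)) [] hmem
        (Or.inr (by simp)) (by simpa [Function.comp_def] using halt)
      simpa [prodE, Function.comp_def] using this
  · have e : vn (Set.range fun i => scU (X i)) = vn (Set.range X) := by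
      refine Set.Subset.antisymm (vn_le ?_) (vn_le ?_)
      · rintro _ ⟨i, rfl⟩; exact hsingle i (hUmem i)
      · rintro _ ⟨i, rfl⟩
        exact vn_mono (Set.singleton_subset_iff.2 (Set.mem_range_self (f := fun j => scU (X j)) i))
          (hback i)
    rw [e]
    exact h.cyclic

end Vale.Agent.P086
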