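import Vale.Agent.P086.Spec
import Vale.Agent.P086.Lemmas
import Vale.Agent.P087.Fock

/-!
# Existence of free semicircular families

The semicircular operators of the Fock space over the trivial group, with the vacuum.
-/

noncomputable section

namespace Vale.Agent.P086

open scoped InnerProductSpace BigOperators
open P087.Fock (FH semi vac bv)

namespace Exist

variable {ι : Type} [Fintype ι] [DecidableEq ι]

/-- The semicircular family on the Fock space. -/
abbrev fam (ι : Type) : ι → FH Unit ι →L[ℂ] FH Unit ι := fun i => semi i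

lemma letter_fam :
    P087.Fock.letter (G := Unit) (fun _ : ι => (0 : ℂ)) (fun _ => 1)
      (fun a k => if a = k then 1 else 0) = fam ι := by
  funext a
  simp [P087.Fock.letter, ite_smul]

lemma wordVec_fam (w : List ι) :
    P087.Fock.wordVec (G := Unit) (fun _ : ι => (0 : ℂ)) (fun _ => 1)
      (fun a k => if a = k then 1 else 0) w = wprod (fam ι) w vac := by
  rw [P087.Fock.wordVec, letter_fam]; rfl

omit [Fintype ι] [DecidableEq ι] in
lemma tr_vac (a : FH Unit ι →L[ℂ] FH Unit ι) : tr vac a = a vac (1, []) := by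
  rw [tr, vac, P087.Fock.inner_bv_left]

lemma split (i : ι) (l : List ι) :
    tr vac (fam ι i * wprod (fam ι) l) = ∑ k : Fin l.length, if l.get k = i then
      tr vac (wprod (fam ι) (l.take k.val)) * tr vac (wprod (fam ι) (l.drop (k.val + 1)))
      else 0 := by
  simp only [tr_vac, mul_apply_eq_comp, ← wordVec_fam]
  rw [P087.Fock.semi_apply_nil,
    show (((1 : Unit), [(i, (1 : Unit))]) : P087.Fock.Bas Unit ι) =
      P087.Fock.snoc ((1 : Unit), []) (i, 1) from rfl,
    P087.Fock.wordVec_snoc]
  refine Finset.sum_congr rfl fun k _ => ?_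
  split_ifs <;> simp

omit [Fintype ι] [DecidableEq ι] in
lemma vn_subset_vna {a : FH Unit ι →L[ℂ] FH Unit ι} (ha : a ∈ vn (Set.range (fam ι))) :
    a ∈ (P087.Fock.vna : VonNeumannAlgebra (FH Unit ι)) := by
  have key : ∀ T ∈ (P087.Fock.leftGens : Set (FH Unit ι →L[ℂ] FH Unit ι)),
      P087.Fock.rop T * a = a * P087.Fock.rop T := by
    intro T hT
    refine ha _ (Set.mem_centralizer_iff.2 fun m hm => ?_)
    obtain ⟨i, rfl⟩ | ⟨-, ⟨i, rfl⟩, rfl⟩ := hm
    · exact (P087.Fock.commute_left_right (Or.inr ⟨i, rfl⟩) hT).eq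
    · rw [P087.Fock.star_semi]
      exact (P087.Fock.commute_left_right (Or.inr ⟨i, rfl⟩) hT).eq
  rw [P087.Fock.mem_vna_iff]
  rintro _ ⟨T, hT, rfl⟩
  refine ⟨key T hT, ?_⟩
  rw [P087.Fock.star_rop]
  exact key _ (P087.Fock.star_mem_leftGens hT)

variable (ι) in
/-- The vectors reached from the vacuum by the algebra. -/
def reached : Submodule ℂ (FH Unit ι) :=
  (vnSub (Set.range (fam ι))).toSubalgebra.toSubmodule.map
    (ContinuousLinearMap.apply ℂ (FH Unit ι) vac).toLinearMap

omit [Fintype ι] [DecidableEq ι] in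
lemma mem_reached {v : FH Unit ι} :
    v ∈ reached ι ↔ ∃ a ∈ vn (Set.range (fam ι)), a vac = v := by
  simp [reached, Submodule.mem_map, mem_vnSub]

omit [Fintype ι] [DecidableEq ι] in
lemma bv_mem_reached : ∀ L : List (ι × Unit),
    (bv (1, L) : FH Unit ι) ∈ reached ι ∧ (bv (1, L.tail) : FH Unit ι) ∈ reached ι
  | [] => by
      have h : (bv (1, []) : FH Unit ι) ∈ reached ι := mem_reached.2 ⟨1, vn_one, rfl⟩
      exact ⟨h, h⟩
  | (k, h) :: L => by
      obtain ⟨h1, h2⟩ := bv_mem_reached L
      refine ⟨?_, h1⟩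
      obtain rfl : h = 1 := rfl
      have hs : semi k (bv ((1 : Unit), L)) ∈ reached ι := by
        obtain ⟨a, ha, hav⟩ := mem_reached.1 h1
        exact mem_reached.2 ⟨fam ι k * a, vn_mul (subset_vn _ ⟨k, rfl⟩) ha, by
          rw [mul_apply_eq_comp, hav]⟩
      have hd : (P087.Fock.dnFun k ((1 : Unit), L)).elim 0 bv ∈ reached ι := by
        rcases L with _ | ⟨⟨k', h'⟩, L'⟩
        · simp [P087.Fock.dnFun]
        · simp only [P087.Fock.dnFun]
          split_ifs
          · exact h2
          · simp
      rw [P087.Fock.semi_bv] at hs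
      exact (Submodule.add_mem_iff_left _ hd).1 hs

omit [Fintype ι] [DecidableEq ι] in
lemma cyclic : Dense ((fun a : FH Unit ι →L[ℂ] FH Unit ι => a vac) '' vn (Set.range (fam ι))) := by
  intro x
  refine mem_closure_of_tendsto (P087.Fock.hasSum_bv x) (Filter.Eventually.of_forall fun F => ?_)
  exact mem_reached.1 (sum_mem fun b _ => Submodule.smul_mem _ _ (bv_mem_reached b.2).1)

end Exist

theorem existGoal : ExistGoal := by
  intro ι _ _
  exact ⟨FH Unit ι, inferInstance, inferInstance, inferInstance, vac, Exist.fam ι,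
    { unit := P087.Fock.norm_bv _
      sa := fun i => P087.Fock.star_semi i
      bound := fun i => P087.Fock.norm_semi_le i
      split := Exist.split
      tracial := fun a ha b hb =>
        P087.Fock.vac_trace (Exist.vn_subset_vna ha) (Exist.vn_subset_vna hb)
      cyclic := Exist.cyclic }⟩

end Vale.Agent.P086
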