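import Vale.Agent.P086.Spec
import Vale.Agent.P086.Lemmas

/-!
# Equal moments give a spatial isomorphism

A cyclic vector for the generated algebra is cyclic for the words in the generators and their
adjoints, so equal moments define an isometry between dense subspaces.
-/

noncomputable section

namespace Vale.Agent.P086

open scoped InnerProductSpace BigOperators

universe u v

namespace Gns

variable {H : Type u} [NormedAddCommGroup H] [InnerProductSpace ℂ H] [CompleteSpace H]
variable {H' : Type v} [NormedAddCommGroup H'] [InnerProductSpace ℂ H'] [CompleteSpace H']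
variable {ι : Type} (Ω : H) (Ω' : H') (X : ι → H →L[ℂ] H) (Y : ι → H' →L[ℂ] H')

/-- The family together with its adjoints. -/
def ext (p : ι × Bool) : H →L[ℂ] H := if p.2 then X p.1 else star (X p.1)

/-- The word of the adjoint. -/
def adjWord (l : List (ι × Bool)) : List (ι × Bool) := (l.map fun p => (p.1, !p.2)).reverse

lemma star_wprod_ext (l : List (ι × Bool)) :
    star (wprod (ext X) l) = wprod (ext X) (adjWord l) := by
  induction l with
  | nil => simp [adjWord, wprod]
  | cons p l ih =>
    have h : adjWord (p :: l) = adjWord l ++ [(p.1, !p.2)] := by simp [adjWord]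
    rw [h, wprod_append, ← ih, wprod_cons, star_mul]
    obtain ⟨i, b⟩ := p
    cases b <;> simp [wprod, ext]

/-- Combinations of word vectors. -/
def wordMap : (List (ι × Bool) →₀ ℂ) →ₗ[ℂ] H :=
  Finsupp.linearCombination ℂ fun l => wprod (ext X) l Ω

lemma wordMap_single (l : List (ι × Bool)) (c : ℂ) :
    wordMap Ω X (Finsupp.single l c) = c • wprod (ext X) l Ω :=
  Finsupp.linearCombination_single ℂ c l

/-- A cyclic vector of the generated algebra is cyclic for words. -/
lemma denseRange_wordMap
    (hc : Dense ((fun a : H →L[ℂ] H => a Ω) '' vn (Set.range X))) :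
    DenseRange (wordMap Ω X) := by
  have hcoe : Set.range (wordMap Ω X) = ((LinearMap.range (wordMap Ω X) : Submodule ℂ H) : Set H) :=
    (LinearMap.coe_range _).symm
  set N := (LinearMap.range (wordMap Ω X)).topologicalClosure
  have : CompleteSpace N := (Submodule.isClosed_topologicalClosure _).completeSpace_coe
  have hinv : ∀ p : ι × Bool, ∀ x ∈ N, ext X p x ∈ N := by
    intro p
    have hsub : LinearMap.range (wordMap Ω X) ≤
        N.comap (ext X p : H →ₗ[ℂ] H) := by
      rintro x ⟨f, rfl⟩
      induction f using Finsupp.induction_linear with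
      | zero => simp
      | add f g hf hg =>
        rw [map_add]
        exact add_mem hf hg
      | single l c =>
        rw [wordMap_single]
        refine Submodule.smul_mem _ c ?_
        refine Submodule.le_topologicalClosure _ ⟨Finsupp.single (p :: l) 1, ?_⟩
        rw [wordMap_single, one_smul, wprod_cons]
        rfl
    exact fun x hx => Submodule.topologicalClosure_minimal _ hsub
      ((Submodule.isClosed_topologicalClosure _).preimage (ext X p).continuous) hx
  have hΩ : Ω ∈ N :=
    Submodule.le_topologicalClosure _ ⟨Finsupp.single [] 1, by simp [wordMap_single, wprod_nil]⟩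
  have hP : N.starProjection ∈
      Set.centralizer (Set.range X ∪ star '' Set.range X) := by
    have hsa : IsSelfAdjoint N.starProjection := isSelfAdjoint_starProjection N
    have hleft : ∀ q : ι × Bool,
        N.starProjection * ext X q * N.starProjection = ext X q * N.starProjection := fun q => by
      ext x
      simp only [mul_apply_eq_comp]
      exact Submodule.starProjection_eq_self_iff.2
        (hinv q _ (N.starProjection_apply_mem x))
    have hcomm : ∀ p : ι × Bool, ext X p * N.starProjection = N.starProjection * ext X p := by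
      rintro ⟨i, b⟩
      have h2 := congrArg star (hleft (i, !b))
      have hs : star (ext X (i, !b)) = ext X (i, b) := by cases b <;> simp [ext]
      simp only [star_mul, hsa.star_eq, hs, ← mul_assoc] at h2
      rw [← h2, hleft]
    rintro m (⟨i, rfl⟩ | ⟨_, ⟨i, rfl⟩, rfl⟩)
    · simpa [ext] using hcomm (i, true)
    · simpa [ext] using hcomm (i, false)
  have hsub : (fun a : H →L[ℂ] H => a Ω) '' vn (Set.range X) ⊆ (N : Set H) := by
    rintro _ ⟨a, ha, rfl⟩
    have h := congrArg (fun T : H →L[ℂ] H => T Ω) (ha _ hP)
    simp only [mul_apply_eq_comp] at h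
    rw [Submodule.starProjection_eq_self_iff.2 hΩ] at h
    exact Submodule.starProjection_eq_self_iff.1 h
  have htop : Dense (N : Set H) := hc.mono hsub
  rw [Submodule.topologicalClosure_coe] at htop
  rw [DenseRange, hcoe]
  exact dense_closure.1 htop

/-- Conjugation carries commutants to commutants. -/
lemma conjU_image_centralizer (U : H ≃ₗᵢ[ℂ] H') (S : Set (H →L[ℂ] H)) :
    conjU U '' Set.centralizer S = Set.centralizer (conjU U '' S) := by
  have hl : ∀ a : H →L[ℂ] H, conjU U.symm (conjU U a) = a := fun a => by
    ext x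
    simp
  have hr : ∀ b : H' →L[ℂ] H', conjU U (conjU U.symm b) = b := fun b => by
    ext x
    simp
  ext b
  constructor
  · rintro ⟨a, ha, rfl⟩ _ ⟨m, hm, rfl⟩
    rw [← conjU_mul, ← conjU_mul, ha m hm]
  · intro hb
    refine ⟨conjU U.symm b, fun m hm => ?_, hr b⟩
    have h := congrArg (conjU U.symm) (hb _ ⟨m, hm, rfl⟩)
    rwa [conjU_mul, conjU_mul, hl] at h

lemma conjU_image_vn (U : H ≃ₗᵢ[ℂ] H') (h : ∀ i, conjU U (X i) = Y i) :
    conjU U '' vn (Set.range X) = vn (Set.range Y) := by
  have h1 : conjU U '' Set.range X = Set.range Y := by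
    rw [← Set.range_comp]
    exact congrArg Set.range (funext h)
  have h2 : conjU U '' (star '' Set.range X) = star '' Set.range Y := by
    rw [← h1, Set.image_image, Set.image_image]
    exact Set.image_congr fun a _ => conjU_star U a
  simp only [vn, conjU_image_centralizer, Set.image_union, h1, h2]

/-- Equal moments give a spatial isomorphism. -/
theorem exists_unitary
    (hX : Dense ((fun a : H →L[ℂ] H => a Ω) '' vn (Set.range X)))
    (hY : Dense ((fun a : H' →L[ℂ] H' => a Ω') '' vn (Set.range Y)))
    (hm : ∀ l, tr Ω (wprod (ext X) l) = tr Ω' (wprod (ext Y) l)) :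
    ∃ U : H ≃ₗᵢ[ℂ] H', U Ω = Ω' ∧ (∀ i, conjU U (X i) = Y i) ∧
      conjU U '' vn (Set.range X) = vn (Set.range Y) := by
  set T := wordMap Ω X with hTdef
  set T' := wordMap Ω' Y with hT'def
  have hdT : DenseRange T := denseRange_wordMap Ω X hX
  have hdT' : DenseRange T' := denseRange_wordMap Ω' Y hY
  have hgram : ∀ l m, ⟪wprod (ext X) l Ω, wprod (ext X) m Ω⟫_ℂ =
      ⟪wprod (ext Y) l Ω', wprod (ext Y) m Ω'⟫_ℂ := by
    intro l m
    have h := hm (adjWord l ++ m)
    rw [wprod_append, wprod_append, ← star_wprod_ext, ← star_wprod_ext] at h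
    simpa only [tr, mul_apply_eq_comp, ContinuousLinearMap.star_eq_adjoint,
      ContinuousLinearMap.adjoint_inner_right] using h
  have hinner : ∀ f g, ⟪T f, T g⟫_ℂ = ⟪T' f, T' g⟫_ℂ := by
    intro f g
    simp only [hTdef, hT'def, wordMap, Finsupp.linearCombination_apply, Finsupp.sum, sum_inner,
      inner_sum, inner_smul_left, inner_smul_right, hgram]
  have hnorm : ∀ f, ‖T f‖ = ‖T' f‖ := fun f => by
    rw [norm_eq_sqrt_re_inner (𝕜 := ℂ), norm_eq_sqrt_re_inner (𝕜 := ℂ), hinner]
  set g := T'.extendOfNorm T with hgdef
  set g' := T.extendOfNorm T' with hg'def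
  have hg : ∀ f, g (T f) = T' f := fun f =>
    LinearMap.extendOfNorm_eq hdT ⟨1, fun f => by rw [one_mul, hnorm]⟩ f
  have hg' : ∀ f, g' (T' f) = T f := fun f =>
    LinearMap.extendOfNorm_eq hdT' ⟨1, fun f => by rw [one_mul, hnorm]⟩ f
  have hiso : ∀ x, ‖g x‖ = ‖x‖ := fun x => congrFun
    (hdT.equalizer g.continuous.norm continuous_norm (funext fun f => by simp [hg, hnorm])) x
  have hsurj : Function.Surjective g := fun y => ⟨g' y, congrFun
    (hdT'.equalizer (g.continuous.comp g'.continuous) continuous_id
      (funext fun f => by simp [hg, hg'])) y⟩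
  set L : H →ₗᵢ[ℂ] H' := ⟨(g : H →ₗ[ℂ] H'), hiso⟩
  set U := LinearIsometryEquiv.ofSurjective L hsurj with hUdef
  have hUT : ∀ f, U (T f) = T' f := hg
  have hUΩ : U Ω = Ω' := by
    have h := hUT (Finsupp.single [] 1)
    simpa [hTdef, hT'def, wordMap_single, wprod_nil] using h
  have hUX : ∀ i, conjU U (X i) = Y i := fun i => by
    have key : ∀ f, U (X i (T f)) = Y i (T' f) := by
      intro f
      induction f using Finsupp.induction_linear with
      | zero => simp
      | add f f' hf hf' => simp [map_add, hf, hf']
      | single l c =>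
        have h := hUT (Finsupp.single ((i, true) :: l) c)
        simp only [hTdef, hT'def, wordMap_single, wprod_cons, mul_apply_eq_comp, ext,
          ↓reduceIte] at h
        simpa [hTdef, hT'def, wordMap_single] using h
    have hxy : ∀ x, U (X i x) = Y i (U x) := congrFun
      (hdT.equalizer (U.continuous.comp (X i).continuous) ((Y i).continuous.comp U.continuous)
        (funext fun f => by simp [key, hUT]))
    ext y
    rw [conjU_apply, hxy, LinearIsometryEquiv.apply_symm_apply]
  exact ⟨U, hUΩ, hUX, conjU_image_vn X Y U hUX⟩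

/-- A word in self-adjoint letters forgets the adjoints. -/
lemma wprod_ext_sa (h : ∀ i, IsSelfAdjoint (X i)) (l : List (ι × Bool)) :
    wprod (ext X) l = wprod X (l.map Prod.fst) := by
  simp only [wprod, List.map_map]
  refine congrArg List.prod (List.map_congr_left fun p _ => ?_)
  simp [ext, (h p.1).star_eq]

variable [DecidableEq ι]

/-- The recursion fixes all moments. -/
lemma moments_sc (hX : IsSC Ω X) (hY : IsSC Ω' Y) :
    ∀ l, tr Ω (wprod X l) = tr Ω' (wprod Y l) := by
  intro l
  induction hn : l.length using Nat.strong_induction_on generalizing l with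
  | _ n ih =>
    match l with
    | [] => simp [wprod_nil, tr, inner_self_eq_norm_sq_to_K, hX.unit, hY.unit]
    | i :: t =>
      simp only [List.length_cons] at hn
      rw [wprod_cons, wprod_cons, hX.split, hY.split]
      refine Finset.sum_congr rfl fun k _ => ?_
      have hk := k.isLt
      rw [ih _ (by rw [List.length_take]; omega) _ rfl,
        ih _ (by rw [List.length_drop]; omega) _ rfl]

/-- Words in a free basis are group elements. -/
lemma wprod_ext_unitary (hu : ∀ i, X i ∈ unitary (H →L[ℂ] H)) (l : List (ι × Bool)) :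
    wprod (ext X) l = fgWord X (FreeGroup.mk l) := by
  let Φ := FreeGroup.lift fun i => (⟨X i, hu i⟩ : unitary (H →L[ℂ] H))
  have key : ∀ m, wprod (ext X) m = (Φ (FreeGroup.mk m) : H →L[ℂ] H) := by
    intro m
    simp only [Φ, FreeGroup.lift_mk, wprod, SubmonoidClass.coe_list_prod, List.map_map]
    refine congrArg List.prod (List.map_congr_left fun p _ => ?_)
    obtain ⟨i, b⟩ := p
    cases b <;> simp [ext, ← Unitary.star_eq_inv]
  have hfg : fgWord X (FreeGroup.mk l) = wprod (ext X) (FreeGroup.mk l).toWord := rfl
  rw [hfg, key, key, FreeGroup.mk_toWord]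

end Gns

theorem gnsGoal : GnsGoal.{u, v} := by
  intro H _ _ _ H' _ _ _ Ω Ω' ι _ _ X Y h
  rcases h with ⟨hX, hY⟩ | ⟨hX, hY⟩
  · refine Gns.exists_unitary Ω Ω' X Y hX.cyclic hY.cyclic fun l => ?_
    rw [Gns.wprod_ext_sa X hX.sa, Gns.wprod_ext_sa Y hY.sa]
    exact Gns.moments_sc Ω Ω' X Y hX.toIsSC hY.toIsSC _
  · refine Gns.exists_unitary Ω Ω' X Y hX.cyclic hY.cyclic fun l => ?_
    rw [Gns.wprod_ext_unitary X hX.mem, Gns.wprod_ext_unitary Y hY.mem, hX.free, hY.free]

end Vale.Agent.P086
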