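import Vale.Agent.P086.Spec
import Vale.Agent.P086.Lemmas

/-!
# Operators with a cyclic trace vector

The trace vector separates, the vector norm is a two-sided module norm, and limits in it stay in
the algebra. A trace on a generating star algebra is a trace on the generated algebra.
-/

noncomputable section

namespace Vale.Agent.P086

open scoped InnerProductSpace Topology
open Filter

universe u

namespace Ops

variable {H : Type u} [NormedAddCommGroup H] [InnerProductSpace ℂ H] [CompleteSpace H]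
variable {Ω : H} {s t : Set (H →L[ℂ] H)} {a b c : H →L[ℂ] H}

lemma tr_mul (a b : H →L[ℂ] H) : tr Ω (a * b) = ⟪(star a) Ω, b Ω⟫_ℂ := by
  rw [tr, ContinuousLinearMap.star_eq_adjoint, ContinuousLinearMap.adjoint_inner_left,
    mul_apply_eq_comp]

lemma norm_star_apply (h : tr Ω (star a * a) = tr Ω (a * star a)) :
    ‖(star a) Ω‖ = ‖a Ω‖ := by
  have h' := tr_star_mul Ω (star a)
  rw [star_star, ← h, tr_star_mul] at h'
  have h2 : ‖a Ω‖ ^ 2 = ‖(star a) Ω‖ ^ 2 := by exact_mod_cast h'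
  exact ((sq_eq_sq₀ (norm_nonneg _) (norm_nonneg _)).1 h2).symm

/-- The hypotheses of `OpsGoal`. -/
structure Tracial (Ω : H) (s : Set (H →L[ℂ] H)) : Prop where
  dense : Dense ((fun a : H →L[ℂ] H => a Ω) '' vn s)
  comm : ∀ a ∈ vn s, ∀ b ∈ vn s, tr Ω (a * b) = tr Ω (b * a)

namespace Tracial

variable (T : Tracial Ω s)
include T

lemma norm_star (ha : a ∈ vn s) : ‖(star a) Ω‖ = ‖a Ω‖ :=
  norm_star_apply (T.comm _ (vn_star ha) _ ha)

lemma norm_mul_le (ha : a ∈ vn s) (hb : b ∈ vn s) : ‖(a * b) Ω‖ ≤ ‖b‖ * ‖a Ω‖ := by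
  rw [← T.norm_star (vn_mul ha hb), star_mul, mul_apply_eq_comp]
  exact ((star b).le_opNorm _).trans (le_of_eq (by rw [_root_.norm_star, T.norm_star ha]))

lemma separating (ha : a ∈ vn s) (h : a Ω = 0) : a = 0 := by
  refine DFunLike.coe_injective (Continuous.ext_on T.dense a.continuous continuous_const ?_)
  rintro _ ⟨c, hc, rfl⟩
  have h1 := T.norm_mul_le ha hc
  rw [h, norm_zero, mul_zero, norm_le_zero_iff] at h1
  exact h1

/-- Convergence on the trace vector gives convergence on the dense set. -/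
lemma tendsto_apply {a : ℕ → H →L[ℂ] H} (ha : ∀ n, a n ∈ vn s) (hb : b ∈ vn s)
    (h : Tendsto (fun n => ‖(a n - b) Ω‖) atTop (𝓝 0)) (hc : c ∈ vn s) :
    Tendsto (fun n => a n (c Ω)) atTop (𝓝 (b (c Ω))) := by
  rw [tendsto_iff_norm_sub_tendsto_zero]
  have h' := h.const_mul ‖c‖
  rw [mul_zero] at h'
  exact squeeze_zero (fun n => norm_nonneg _)
    (fun n => T.norm_mul_le (vn_sub (ha n) hb) hc) h'

lemma closed (hts : t ⊆ vn s) (ha : a ∈ vn s)
    (happ : ∀ ε : ℝ, 0 < ε → ∃ b ∈ vn t, ‖(a - b) Ω‖ ≤ ε) : a ∈ vn t := by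
  choose b hbt hb using fun n : ℕ => happ (1 / (n + 1)) (by positivity)
  have hbs : ∀ n, b n ∈ vn s := fun n => vn_le hts (hbt n)
  have h0 : Tendsto (fun n => ‖(b n - a) Ω‖) atTop (𝓝 0) :=
    squeeze_zero (fun n => norm_nonneg _)
      (fun n => by rw [← norm_neg, ← neg_apply, neg_sub]; exact hb n)
      tendsto_one_div_add_atTop_nhds_zero_nat
  have h1 : Tendsto (fun n => ‖(star (b n) - star a) Ω‖) atTop (𝓝 0) := by
    refine h0.congr fun n => ?_
    rw [← star_sub, T.norm_star (vn_sub (hbs n) ha)]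
  intro y hy
  refine DFunLike.coe_injective (Continuous.ext_on T.dense (y * a).continuous (a * y).continuous ?_)
  rintro _ ⟨c, hc, rfl⟩
  refine T.dense.eq_of_inner_right ℂ ?_
  rintro _ ⟨e, he, rfl⟩
  have g1 : Tendsto (fun n => ⟪e Ω, y (b n (c Ω))⟫_ℂ) atTop (𝓝 ⟪e Ω, y (a (c Ω))⟫_ℂ) :=
    (((continuous_const.inner continuous_id).comp y.continuous).tendsto _).comp
      (T.tendsto_apply hbs ha h0 hc)
  have g2 : Tendsto (fun n => ⟪(star (b n)) (e Ω), y (c Ω)⟫_ℂ) atTop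
      (𝓝 ⟪(star a) (e Ω), y (c Ω)⟫_ℂ) :=
    ((continuous_id.inner continuous_const).tendsto _).comp
      (T.tendsto_apply (fun n => vn_star (hbs n)) (vn_star ha) h1 he)
  have g3 : ∀ n, ⟪e Ω, y (b n (c Ω))⟫_ℂ = ⟪(star (b n)) (e Ω), y (c Ω)⟫_ℂ := fun n => by
    rw [ContinuousLinearMap.star_eq_adjoint, ContinuousLinearMap.adjoint_inner_left]
    exact congrArg (fun f : H →L[ℂ] H => ⟪e Ω, f (c Ω)⟫_ℂ) (hbt n y hy)
  have g4 := tendsto_nhds_unique (g1.congr g3) g2
  rw [ContinuousLinearMap.star_eq_adjoint, ContinuousLinearMap.adjoint_inner_left] at g4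
  exact g4

lemma exists_limit (hts : t ⊆ vn s) {a : ℕ → H →L[ℂ] H} {R : ℝ} (ha : ∀ n, a n ∈ vn t)
    (hR : ∀ n, ‖a n‖ ≤ R) (hcs : CauchySeq fun n => a n Ω) :
    ∃ b ∈ vn t, ‖b‖ ≤ R ∧ Tendsto (fun n => a n Ω) atTop (𝓝 (b Ω)) := by
  have has : ∀ n, a n ∈ vn s := fun n => vn_le hts (ha n)
  have hR0 : 0 ≤ R := (norm_nonneg _).trans (hR 0)
  have hdense : ∀ v : H, CauchySeq fun n => a n v := by
    intro v
    rw [Metric.cauchySeq_iff]
    intro ε hε
    obtain ⟨_, ⟨c, hc, rfl⟩, hvw⟩ := Metric.mem_closure_iff.1 (T.dense v)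
      (ε / (3 * (R + 1))) (by positivity)
    obtain ⟨N, hN⟩ := Metric.cauchySeq_iff.1 hcs (ε / (3 * (‖c‖ + 1))) (by positivity)
    refine ⟨N, fun m hm n hn => ?_⟩
    have hk : ∀ k, dist (a k v) (a k (c Ω)) < ε / 3 := fun k => by
      calc dist (a k v) (a k (c Ω)) ≤ (R + 1) * dist v (c Ω) := by
            rw [dist_eq_norm, dist_eq_norm, ← map_sub]
            refine ((a k).le_opNorm _).trans ?_
            gcongr
            linarith [hR k]
        _ < (R + 1) * (ε / (3 * (R + 1))) := by gcongr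
        _ = ε / 3 := by field_simp
    have hm' : dist (a m (c Ω)) (a n (c Ω)) < ε / 3 := by
      calc dist (a m (c Ω)) (a n (c Ω)) ≤ (‖c‖ + 1) * dist (a m Ω) (a n Ω) := by
            rw [dist_eq_norm, dist_eq_norm]
            refine (T.norm_mul_le (vn_sub (has m) (has n)) hc).trans ?_
            gcongr
            · linarith
            · exact le_rfl
        _ < (‖c‖ + 1) * (ε / (3 * (‖c‖ + 1))) := by gcongr; exact hN m hm n hn
        _ = ε / 3 := by field_simp
    linarith [dist_triangle4 (a m v) (a m (c Ω)) (a n (c Ω)) (a n v), hk m, hk n,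
      dist_comm (a n (c Ω)) (a n v)]
  choose g hg using fun v => cauchySeq_tendsto_of_complete (hdense v)
  let L : H →ₗ[ℂ] H :=
    { toFun := g
      map_add' := fun v w => tendsto_nhds_unique (hg (v + w)) (by simpa using (hg v).add (hg w))
      map_smul' := fun c v =>
        tendsto_nhds_unique (hg (c • v)) (by simpa using (hg v).const_smul c) }
  have hLb : ∀ v, ‖L v‖ ≤ R * ‖v‖ := fun v =>
    le_of_tendsto (hg v).norm (Eventually.of_forall fun n =>
      ((a n).le_opNorm v).trans (by gcongr; exact hR n))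
  set b : H →L[ℂ] H := L.mkContinuous R hLb
  have hb : ∀ v, Tendsto (fun n => a n v) atTop (𝓝 (b v)) := hg
  refine ⟨b, fun y hy => ?_, L.mkContinuous_norm_le hR0 hLb, hb Ω⟩
  refine ContinuousLinearMap.ext fun v => ?_
  refine tendsto_nhds_unique ((y.continuous.tendsto _).comp (hb v)) ?_
  refine (hb (y v)).congr fun n => ?_
  exact congrArg (fun f : H →L[ℂ] H => f v) (ha n y hy).symm

lemma norm_le_of_powers (ha : a ∈ vn s) (hsa : IsSelfAdjoint a) {R : ℝ} (hR0 : 0 ≤ R)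
    (h : ∀ n : ℕ, ‖(a ^ n) Ω‖ ≤ R ^ n) : ‖a‖ ≤ R := by
  refine a.opNorm_le_bound hR0 fun v => ?_
  refine T.dense.induction ?_ (isClosed_le a.continuous.norm (continuous_const.mul continuous_norm))
    v
  rintro _ ⟨c, hc, rfl⟩
  set w := c Ω with hw
  rcases eq_or_ne w 0 with hw0 | hw0
  · show ‖a w‖ ≤ R * ‖w‖
    simp [hw0]
  have hwp : 0 < ‖w‖ := norm_pos_iff.2 hw0
  have hstep : ∀ k : ℕ,
      ‖a w‖ ^ (2 ^ k) * ‖w‖ ≤ ‖w‖ ^ (2 ^ k) * ‖(a ^ (2 ^ k)) w‖ := by
    intro k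
    induction k with
    | zero => simp [mul_comm]
    | succ k ih =>
      set m := 2 ^ k
      have h2 : ‖(a ^ m) w‖ ^ 2 ≤ ‖w‖ * ‖(a ^ (m * 2)) w‖ := by
        have e : (a ^ (m * 2)) w = (a ^ m) ((a ^ m) w) := by
          rw [mul_two, pow_add, mul_apply_eq_comp]
        have h3 : ⟪(a ^ m) w, (a ^ m) w⟫_ℂ = ⟪w, (a ^ m) ((a ^ m) w)⟫_ℂ := by
          conv_lhs => rw [show a ^ m = star (a ^ m) from ((hsa.pow m).star_eq).symm]
          rw [ContinuousLinearMap.star_eq_adjoint, ContinuousLinearMap.adjoint_inner_left]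
          rw [← ContinuousLinearMap.star_eq_adjoint, (hsa.pow m).star_eq]
        have h4 := congrArg norm h3
        rw [inner_self_eq_norm_sq_to_K, norm_pow, RCLike.norm_ofReal, abs_norm] at h4
        rw [e, h4]
        exact norm_inner_le_norm _ _
      have h5 := mul_le_mul ih ih (by positivity) (by positivity)
      rw [pow_succ 2 k]
      refine le_of_mul_le_mul_right ?_ hwp
      calc ‖a w‖ ^ (m * 2) * ‖w‖ * ‖w‖ = ‖a w‖ ^ m * ‖w‖ * (‖a w‖ ^ m * ‖w‖) := by ring
        _ ≤ ‖w‖ ^ m * ‖(a ^ m) w‖ * (‖w‖ ^ m * ‖(a ^ m) w‖) := h5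
        _ = ‖w‖ ^ (m * 2) * ‖(a ^ m) w‖ ^ 2 := by ring
        _ ≤ ‖w‖ ^ (m * 2) * (‖w‖ * ‖(a ^ (m * 2)) w‖) := by gcongr
        _ = ‖w‖ ^ (m * 2) * ‖(a ^ (m * 2)) w‖ * ‖w‖ := by ring
  by_contra hlt
  push Not at hlt
  have hawp : 0 < ‖a w‖ := lt_of_le_of_lt (by positivity) hlt
  set q := R * ‖w‖ / ‖a w‖
  have hq1 : q < 1 := (div_lt_one hawp).2 hlt
  have hlim : Tendsto (fun k : ℕ => q ^ (2 ^ k) * ‖c‖) atTop (𝓝 0) := by
    have h6 := ((tendsto_pow_atTop_nhds_zero_of_lt_one (by positivity) hq1).comp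
      (tendsto_pow_atTop_atTop_of_one_lt (show 1 < 2 by norm_num))).mul_const ‖c‖
    simpa using h6
  obtain ⟨k, hk⟩ := (hlim.eventually (eventually_lt_nhds hwp)).exists
  have h7 : ‖(a ^ (2 ^ k)) w‖ ≤ R ^ (2 ^ k) * ‖c‖ := by
    calc ‖(a ^ (2 ^ k)) w‖ ≤ ‖c‖ * ‖(a ^ (2 ^ k)) Ω‖ := T.norm_mul_le (vn_pow ha _) hc
      _ ≤ ‖c‖ * R ^ (2 ^ k) := by gcongr; exact h _
      _ = R ^ (2 ^ k) * ‖c‖ := mul_comm _ _
  have h8 : ‖a w‖ ^ (2 ^ k) * ‖w‖ ≤ ‖a w‖ ^ (2 ^ k) * (q ^ (2 ^ k) * ‖c‖) := by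
    refine (hstep k).trans ((mul_le_mul_of_nonneg_left h7 (by positivity)).trans (le_of_eq ?_))
    simp only [q, div_pow, mul_pow]
    field_simp
  have h9 := le_of_mul_le_mul_left h8 (by positivity)
  linarith

end Tracial

/-- Elements of a generated algebra are approximated on any vector by the star algebra. -/
lemma approx_adjoin (Ω : H) (ha : a ∈ vn t) {ε : ℝ} (hε : 0 < ε) :
    ∃ b ∈ StarAlgebra.adjoin ℂ t, ‖(a - b) Ω‖ ≤ ε := by
  let A := StarAlgebra.adjoin ℂ t
  let S : Submodule ℂ H :=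
    A.toSubalgebra.toSubmodule.map ((ContinuousLinearMap.apply ℂ H Ω).toLinearMap)
  let K := S.topologicalClosure
  have : CompleteSpace K := Submodule.topologicalClosure.completeSpace _
  have hinv : ∀ y ∈ A, ∀ k ∈ K, y k ∈ K := by
    intro y hy k hk
    have hmaps : Set.MapsTo y (S : Set H) (S : Set H) := by
      rintro _ ⟨x, hx, rfl⟩
      exact ⟨y * x, mul_mem (s := A) hy hx, rfl⟩
    exact hmaps.closure y.continuous hk
  have hcom : ∀ y ∈ A, y * K.starProjection = K.starProjection * y := by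
    intro y hy
    refine ContinuousLinearMap.ext fun v => ?_
    refine (Submodule.eq_starProjection_of_mem_orthogonal
      (hinv y hy _ (K.starProjection_apply_mem v)) ?_).symm
    show y v - y (K.starProjection v) ∈ Kᗮ
    rw [← map_sub, Submodule.mem_orthogonal]
    intro k hk
    rw [← ContinuousLinearMap.adjoint_inner_left, ← ContinuousLinearMap.star_eq_adjoint]
    exact Submodule.sub_starProjection_mem_orthogonal v _ (hinv _ (star_mem hy) k hk)
  have hP : K.starProjection ∈ Set.centralizer (t ∪ star '' t) := by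
    rintro y (hy | ⟨z, hz, rfl⟩)
    · exact hcom y (StarAlgebra.subset_adjoin ℂ t hy)
    · exact hcom _ (star_mem (StarAlgebra.subset_adjoin ℂ t hz))
  have hΩ : Ω ∈ K := S.le_topologicalClosure ⟨1, one_mem A, rfl⟩
  have haΩ : a Ω ∈ K := by
    have h1 := congrArg (fun f : H →L[ℂ] H => f Ω) (ha _ hP)
    simp only [mul_apply_eq_comp, Submodule.starProjection_eq_self_iff.2 hΩ] at h1
    exact Submodule.starProjection_eq_self_iff.1 h1
  have hcl : a Ω ∈ closure (S : Set H) := by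
    rw [← Submodule.topologicalClosure_coe]; exact haΩ
  obtain ⟨_, ⟨b, hb, rfl⟩, hd⟩ := Metric.mem_closure_iff.1 hcl ε hε
  exact ⟨b, hb, by rw [sub_apply, ← dist_eq_norm]; exact hd.le⟩

/-- A trace on a star algebra with dense orbit is a trace on the generated algebra. -/
lemma comm_of_adjoin (hd : Dense ((fun a : H →L[ℂ] H => a Ω) '' vn s))
    (hc : ∀ a ∈ StarAlgebra.adjoin ℂ s, ∀ b ∈ StarAlgebra.adjoin ℂ s,
      tr Ω (a * b) = tr Ω (b * a)) :
    ∀ a ∈ vn s, ∀ b ∈ vn s, tr Ω (a * b) = tr Ω (b * a) := by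
  let A := StarAlgebra.adjoin ℂ s
  have hst : ∀ x ∈ A, ‖(star x) Ω‖ = ‖x Ω‖ := fun x hx =>
    norm_star_apply (hc _ (star_mem hx) _ hx)
  let e : A →ₗ[ℂ] H :=
    (ContinuousLinearMap.apply ℂ H Ω).toLinearMap.comp A.toSubalgebra.toSubmodule.subtype
  have he : ∀ x : A, e x = (x : H →L[ℂ] H) Ω := fun x => rfl
  have hA : DenseRange e := by
    rw [DenseRange, dense_iff_closure_eq, ← Set.univ_subset_iff, ← hd.closure_eq]
    refine closure_minimal ?_ isClosed_closure
    rintro _ ⟨a, ha, rfl⟩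
    rw [Metric.mem_closure_iff]
    intro ε hε
    obtain ⟨b, hb, hab⟩ := approx_adjoin Ω ha (half_pos hε)
    exact ⟨b Ω, ⟨⟨b, hb⟩, rfl⟩, by
      rw [dist_eq_norm, ← sub_apply]; linarith⟩
  -- elements of the algebra multiply from the right boundedly
  have key : ∀ a ∈ vn s, ∀ z ∈ A, ⟪(star a) Ω, z Ω⟫_ℂ = ⟪(star z) Ω, a Ω⟫_ℂ := by
    intro a ha z hz
    let f : A →ₗ[ℂ] H :=
      (ContinuousLinearMap.apply ℂ H (z Ω)).toLinearMap.comp A.toSubalgebra.toSubmodule.subtype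
    have hf : ∀ x : A, ‖f x‖ ≤ ‖z‖ * ‖e x‖ := by
      intro x
      show ‖((x : H →L[ℂ] H) * z) Ω‖ ≤ ‖z‖ * ‖(x : H →L[ℂ] H) Ω‖
      rw [← hst _ (mul_mem x.2 hz), star_mul, mul_apply_eq_comp]
      exact ((star z).le_opNorm _).trans (le_of_eq (by rw [_root_.norm_star, hst _ x.2]))
    set Rz := f.extendOfNorm e
    have hR : ∀ x : A, Rz (e x) = f x := fun x => LinearMap.extendOfNorm_eq hA ⟨‖z‖, hf⟩ x
    have hRc : Rz ∈ Set.centralizer (s ∪ star '' s) := by
      intro y hy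
      have hyA : y ∈ A := by
        rcases hy with hy | ⟨w, hw, rfl⟩
        · exact StarAlgebra.subset_adjoin ℂ s hy
        · exact star_mem (StarAlgebra.subset_adjoin ℂ s hw)
      refine DFunLike.coe_injective
        (Continuous.ext_on hA (y * Rz).continuous (Rz * y).continuous ?_)
      rintro _ ⟨x, rfl⟩
      show y (Rz (e x)) = Rz (y (e x))
      rw [hR, show y (e x) = e ⟨y * x, mul_mem hyA x.2⟩ from rfl, hR]
      rfl
    have h1 : Rz Ω = z Ω := by
      have := hR ⟨1, one_mem A⟩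
      exact this
    have h2 : (star Rz) Ω = (star z) Ω := by
      refine hA.eq_of_inner_left ℂ ?_
      intro x
      rw [ContinuousLinearMap.star_eq_adjoint, ContinuousLinearMap.adjoint_inner_left, hR, he,
        show f x = ((x : H →L[ℂ] H) * z) Ω from rfl]
      exact (hc _ x.2 z hz).trans (tr_mul _ _)
    rw [← tr_mul]
    calc tr Ω (a * z) = ⟪Ω, a (Rz Ω)⟫_ℂ := by rw [h1, tr, mul_apply_eq_comp]
      _ = ⟪Ω, Rz (a Ω)⟫_ℂ := congrArg (fun v => ⟪Ω, v⟫_ℂ)
          (congrArg (fun f : H →L[ℂ] H => f Ω) (ha Rz hRc).symm)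
      _ = ⟪(star Rz) Ω, a Ω⟫_ℂ := by
          rw [ContinuousLinearMap.star_eq_adjoint, ContinuousLinearMap.adjoint_inner_left]
      _ = ⟪(star z) Ω, a Ω⟫_ℂ := by rw [h2]
  have hseq : ∀ a ∈ vn s, ∃ x : ℕ → A, Tendsto (fun n => (x n : H →L[ℂ] H) Ω) atTop (𝓝 (a Ω)) ∧
      Tendsto (fun n => (star (x n : H →L[ℂ] H)) Ω) atTop (𝓝 ((star a) Ω)) := by
    intro a ha
    choose x hxA hx using fun n : ℕ => approx_adjoin Ω ha (ε := 1 / ((n : ℝ) + 1)) (by positivity)
    have h1 : Tendsto (fun n => x n Ω) atTop (𝓝 (a Ω)) := by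
      rw [tendsto_iff_norm_sub_tendsto_zero]
      refine squeeze_zero (fun n => norm_nonneg _) (fun n => ?_)
        tendsto_one_div_add_atTop_nhds_zero_nat
      rw [norm_sub_rev, ← sub_apply]
      exact hx n
    have h2 : CauchySeq fun n => (star (x n)) Ω := by
      rw [Metric.cauchySeq_iff]
      intro ε hε
      obtain ⟨N, hN⟩ := Metric.cauchySeq_iff.1 h1.cauchySeq ε hε
      refine ⟨N, fun m hm n hn => ?_⟩
      rw [dist_eq_norm, ← sub_apply, ← star_sub, hst _ (sub_mem (hxA m) (hxA n)), sub_apply,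
        ← dist_eq_norm]
      exact hN m hm n hn
    obtain ⟨ζ, hζ⟩ := cauchySeq_tendsto_of_complete h2
    refine ⟨fun n => ⟨x n, hxA n⟩, h1, ?_⟩
    suffices ζ = (star a) Ω from this ▸ hζ
    refine hA.eq_of_inner_left ℂ ?_
    intro z
    rw [he, key a ha z z.2]
    refine tendsto_nhds_unique (((continuous_id.inner continuous_const).tendsto _).comp hζ) ?_
    refine (((continuous_const.inner continuous_id).tendsto _).comp h1).congr fun n => ?_
    show ⟪(star (z : H →L[ℂ] H)) Ω, x n Ω⟫_ℂ = ⟪(star (x n)) Ω, (z : H →L[ℂ] H) Ω⟫_ℂ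
    rw [← tr_mul, ← tr_mul]
    exact hc _ z.2 _ (hxA n)
  intro a ha b hb
  obtain ⟨x, hx, hxs⟩ := hseq a ha
  obtain ⟨y, hy, hys⟩ := hseq b hb
  have t1 := hxs.inner hy (𝕜 := ℂ)
  have t2 := hys.inner hx (𝕜 := ℂ)
  rw [tr_mul, tr_mul]
  refine tendsto_nhds_unique t1 (t2.congr fun n => ?_)
  rw [← tr_mul, ← tr_mul]
  exact hc _ (y n).2 _ (x n).2

section Basis

variable {ι : Type} [DecidableEq ι] {u : ι → H →L[ℂ] H}

/-- The representation of the free group by a family of unitaries. -/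
lemma fgWord_eq_lift (hu : ∀ i, u i ∈ unitary (H →L[ℂ] H)) (g : FreeGroup ι) :
    fgWord u g = (FreeGroup.lift (fun i => (⟨u i, hu i⟩ : unitary (H →L[ℂ] H))) g :
      H →L[ℂ] H) := by
  conv_rhs => rw [← FreeGroup.mk_toWord (x := g), FreeGroup.lift_mk]
  rw [fgWord, Submonoid.coe_list_prod, List.map_map]
  congr 1
  refine List.map_congr_left fun p _ => ?_
  obtain ⟨i, b⟩ := p
  cases b <;> rfl

lemma adjoin_le_span (hu : ∀ i, u i ∈ unitary (H →L[ℂ] H))
    (ha : a ∈ StarAlgebra.adjoin ℂ (Set.range u)) :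
    a ∈ Submodule.span ℂ (Set.range (fgWord u)) := by
  set φ := FreeGroup.lift (fun i => (⟨u i, hu i⟩ : unitary (H →L[ℂ] H)))
  have hmul : ∀ g h, fgWord u (g * h) = fgWord u g * fgWord u h := fun g h => by
    simp only [fgWord_eq_lift hu, map_mul, Submonoid.coe_mul]
  induction ha using StarAlgebra.adjoin_induction with
  | mem x hx =>
    obtain ⟨i, rfl⟩ := hx
    refine Submodule.subset_span ⟨FreeGroup.of i, ?_⟩
    simp [fgWord_eq_lift hu]
  | algebraMap r =>
    rw [Algebra.algebraMap_eq_smul_one]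
    refine Submodule.smul_mem _ r (Submodule.subset_span ⟨1, ?_⟩)
    simp [fgWord_eq_lift hu]
  | add x y _ _ hx hy => exact add_mem hx hy
  | mul x y _ _ hx hy =>
    have h := Submodule.mul_mem_mul hx hy
    rw [Submodule.span_mul_span] at h
    refine Submodule.span_mono ?_ h
    rintro _ ⟨_, ⟨g, rfl⟩, _, ⟨h, rfl⟩, rfl⟩
    exact ⟨g * h, hmul g h⟩
  | star x hxA hx =>
    clear hxA
    induction hx using Submodule.span_induction with
    | mem y hy =>
      obtain ⟨g, rfl⟩ := hy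
      refine Submodule.subset_span ⟨g⁻¹, ?_⟩
      simp only [fgWord_eq_lift hu, map_inv, ← Unitary.star_eq_inv]
      rfl
    | zero => rw [star_zero]; exact zero_mem _
    | add y z _ _ hy hz => rw [star_add]; exact add_mem hy hz
    | smul c y _ hy => rw [star_smul]; exact Submodule.smul_mem _ _ hy

lemma comm_basis {Ω : H} (hB : IsBasis Ω u) :
    ∀ a ∈ StarAlgebra.adjoin ℂ (Set.range u), ∀ b ∈ StarAlgebra.adjoin ℂ (Set.range u),
      tr Ω (a * b) = tr Ω (b * a) := by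
  intro a ha b hb
  have hgh : ∀ g h, tr Ω (fgWord u g * fgWord u h) = tr Ω (fgWord u h * fgWord u g) := fun g h => by
    have hmul : ∀ g h, fgWord u g * fgWord u h = fgWord u (g * h) := fun g h => by
      simp only [fgWord_eq_lift hB.mem, map_mul, Submonoid.coe_mul]
    rw [hmul, hmul, hB.free, hB.free]
    exact if_congr mul_eq_one_comm rfl rfl
  replace ha := adjoin_le_span hB.mem ha
  replace hb := adjoin_le_span hB.mem hb
  induction ha using Submodule.span_induction with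
  | mem x hx =>
    obtain ⟨g, rfl⟩ := hx
    induction hb using Submodule.span_induction with
    | mem y hy =>
      obtain ⟨h, rfl⟩ := hy
      exact hgh g h
    | zero => simp [tr]
    | add y z _ _ hy hz => rw [mul_add, add_mul, tr_add, tr_add, hy, hz]
    | smul c y _ hy => rw [mul_smul_comm, smul_mul_assoc, tr_smul, tr_smul, hy]
  | zero => simp [tr]
  | add x y _ _ hx hy => rw [add_mul, mul_add, tr_add, tr_add, hx, hy]
  | smul c x _ hx => rw [smul_mul_assoc, mul_smul_comm, tr_smul, tr_smul, hx]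

end Basis

end Ops

theorem opsGoal : OpsGoal.{u} := by
  intro H _ _ _ Ω s hd hc
  have T : Ops.Tracial Ω s := ⟨hd, hc⟩
  refine ⟨fun a ha h => T.separating ha h, fun a ha b hb => ⟨?_, T.norm_mul_le ha hb,
    T.norm_star ha⟩, fun a ha hsa R hR h => T.norm_le_of_powers ha hsa hR h,
    fun t ht a ha h => T.closed ht ha h, fun t ht a R ha hR h => T.exists_limit ht ha hR h,
    fun t _ a ha ε hε => Ops.approx_adjoin Ω ha hε⟩
  exact a.le_opNorm (b Ω)

theorem traceGoal : TraceGoal.{u} := by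
  refine ⟨fun Ω s hd hc => Ops.comm_of_adjoin hd hc, ?_⟩
  intro H _ _ _ Ω ι _ _ u hB
  exact Ops.comm_of_adjoin hB.cyclic (Ops.comm_basis hB)

end Vale.Agent.P086
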